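import Vale.Agent.P086.Model.GaugeSplit

/-!
# The gauge does not change the moments

The blocks of both triples are edges on `K` points. Both families obey the same recursion on every
edge outside the star at the first point, and on the star they have the same moments.
-/

noncomputable section

namespace Vale.Agent.P086.Gauge

open scoped InnerProductSpace BigOperators Topology
open Filter Polynomial

universe u v

set_option linter.unusedSectionVars false

variable {H : Type u} [NormedAddCommGroup H] [InnerProductSpace ℂ H] [CompleteSpace H]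
variable {H' : Type v} [NormedAddCommGroup H'] [InnerProductSpace ℂ H'] [CompleteSpace H']
variable {K : ℕ} {ι : Type} [DecidableEq ι]

/-! ## The edges -/

/-- The start of an edge. -/
def src : RIdx K → Fin K
  | .inl i => i
  | .inr (.inl p) => p.1
  | .inr (.inr p) => p.1

/-- The end of an edge. -/
def dst : RIdx K → Fin K
  | .inl i => i
  | .inr (.inl p) => p.2
  | .inr (.inr p) => p.2

/-- The reversed edge. -/
def rev : RIdx K → RIdx K
  | .inl i => .inl i
  | .inr (.inl p) => .inr (.inl p.swap)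
  | .inr (.inr p) => .inr (.inr p.swap)

lemma src_rev (e : RIdx K) : src (rev e) = dst e := by rcases e with i | p | p <;> rfl

lemma dst_rev (e : RIdx K) : dst (rev e) = src e := by rcases e with i | p | p <;> rfl

/-- An edge of the star at the first point. -/
def Star : RIdx K → Prop
  | .inr (.inl p) => ((p.1 : ℕ) = 0 ∧ (p.2 : ℕ) ≠ 0) ∨ ((p.2 : ℕ) = 0 ∧ (p.1 : ℕ) ≠ 0)
  | _ => False

/-- Paths. -/
def IsPath : Fin K → List (RIdx K) → Fin K → Prop
  | p, [], q => p = q
  | p, e :: l, q => src e = p ∧ IsPath (dst e) l q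

lemma isPath_append (A B : List (RIdx K)) (p q : Fin K) :
    IsPath p (A ++ B) q ↔ ∃ x, IsPath p A x ∧ IsPath x B q := by
  induction A generalizing p with
  | nil => simp [IsPath]
  | cons e A ih => simp [IsPath, ih, and_assoc]

/-- The weight of the coordinate `k` in the entry `l` of a Hermitian matrix. -/
def co (k l : Fin K × Fin K) : ℂ :=
  if l.1 = l.2 then (if k = l then 1 else 0)
  else if l.1 < l.2 then
    ((Real.sqrt 2)⁻¹ : ℂ) *
      ((if k = l then 1 else 0) + Complex.I * (if k = l.swap then 1 else 0))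
  else ((Real.sqrt 2)⁻¹ : ℂ) *
      ((if k = l.swap then 1 else 0) - Complex.I * (if k = l then 1 else 0))

lemma herm_eq (b : Fin K × Fin K → H →L[ℂ] H) (r t : Fin K) :
    herm b r t = ∑ k, co k (r, t) • b k := by
  unfold herm co
  simp only [Prod.swap_prod_mk]
  split_ifs with h1 h2
  · subst h1; simp [ite_smul]
  · simp [mul_smul, add_smul, ite_smul, Finset.sum_add_distrib]
  · simp [mul_smul, sub_smul, ite_smul, Finset.sum_sub_distrib, ← Finset.smul_sum]

lemma sqrt_two_sq : ((Real.sqrt 2)⁻¹ : ℂ) * ((Real.sqrt 2)⁻¹ : ℂ) = 1 / 2 := by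
  rw [← mul_inv, ← Complex.ofReal_mul, Real.mul_self_sqrt (by norm_num)]
  norm_num

lemma sum_co (e : Fin K × Fin K) (f : Fin K × Fin K → ℂ) :
    ∑ k, co k e * f k = if e.1 = e.2 then f e
      else if e.1 < e.2 then ((Real.sqrt 2)⁻¹ : ℂ) * (f e + Complex.I * f e.swap)
      else ((Real.sqrt 2)⁻¹ : ℂ) * (f e.swap - Complex.I * f e) := by
  unfold co
  split_ifs <;>
    simp [mul_add, add_mul, mul_sub, sub_mul, ite_mul, Finset.sum_add_distrib,
      Finset.sum_sub_distrib, mul_assoc]

lemma cov_co (e l : Fin K × Fin K) :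
    ∑ k, co k e * co k l = if l = e.swap then 1 else 0 := by
  rw [sum_co]
  obtain ⟨p, q⟩ := e
  obtain ⟨r, t⟩ := l
  have hs := sqrt_two_sq
  simp only [co, Prod.swap_prod_mk, Prod.mk.injEq]
  generalize ((Real.sqrt 2)⁻¹ : ℂ) = s at hs
  split_ifs <;> first
    | (exfalso; omega)
    | ring1
    | linear_combination 2 * hs
    | linear_combination (s ^ 2) * Complex.I_mul_I
    | linear_combination -(s ^ 2) * Complex.I_mul_I
    | linear_combination 2 * hs - (s ^ 2) * Complex.I_mul_I

/-- The weight of a coordinate in an edge. -/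
def cw : RIdx K → RIdx K → ℂ
  | .inl i, .inl j => if i = j then 1 else 0
  | .inr (.inl k), .inr (.inl l) => co k l
  | .inr (.inr k), .inr (.inr l) => co k l
  | _, _ => 0

/-- The operator of an edge in a family of coordinates. -/
def lcomb (z : RIdx K → H →L[ℂ] H) : RIdx K → H →L[ℂ] H
  | .inl i => z (.inl i)
  | .inr (.inl p) => herm (fun q => z (.inr (.inl q))) p.1 p.2
  | .inr (.inr p) => herm (fun q => z (.inr (.inr q))) p.1 p.2

lemma lcomb_eq (z : RIdx K → H →L[ℂ] H) (l : RIdx K) : lcomb z l = ∑ k, cw k l • z k := by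
  rcases l with i | p | p <;>
    simp [lcomb, cw, Fintype.sum_sum_type, herm_eq, ite_smul]

lemma cov_cw (e l : RIdx K) : ∑ k, cw k e * cw k l = if l = rev e then 1 else 0 := by
  rcases e with i | p | p <;> rcases l with j | q | q <;>
    simp [cw, rev, Fintype.sum_sum_type, cov_co]

lemma star_cw {k l : RIdx K} (h : cw k l ≠ 0) : Star k ↔ Star l := by
  rcases k with i | p | p <;> rcases l with j | q | q <;> simp [cw, Star] at h ⊢
  have : p = q ∨ p = q.swap := by
    by_contra hc
    push Not at hc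
    exact h (by simp [co, hc.1, hc.2])
  rcases this with rfl | rfl
  · rfl
  · simp [or_comm]

lemma sum_erase_eq (z : RIdx K → H →L[ℂ] H) (k l : RIdx K) :
    lcomb z l - cw k l • z k = ∑ k' ∈ Finset.univ.erase k, cw k' l • z k' := by
  rw [lcomb_eq, ← Finset.sum_erase_add _ _ (Finset.mem_univ k), add_sub_cancel_right]

/-- The recursion on an edge. -/
lemma split_edge {Ω : H} {X : ι → H →L[ℂ] H} (hX : IsSC Ω X) (ev z : RIdx K → H →L[ℂ] H)
    (e : RIdx K) (he : ev e = lcomb z e)
    (h : ∀ k, cw k e ≠ 0 → ∃ i, X i = z k ∧ ∀ l, ev l - cw k l • X i ∈ others X i)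
    (L : List (RIdx K)) :
    tr Ω (ev e * wprod ev L) = spl Ω ev (fun l => if l = rev e then 1 else 0) 1 L 1 := by
  rw [he, lcomb_eq, Finset.sum_mul, tr_sum]
  simp only [← cov_cw e, spl_coef_sum, spl_coef_smul, smul_mul_assoc, tr_smul]
  refine Finset.sum_congr rfl fun k _ => ?_
  by_cases hk : cw k e = 0
  · simp [hk]
  · obtain ⟨i, hi, hl⟩ := h k hk
    rw [← hi, split_one' hX i ev (cw k) hl]

/-! ## The two families -/

/-- The coordinates after the gauge. -/
def zG (a : MIdx K → H →L[ℂ] H) : RIdx K → H →L[ℂ] H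
  | .inl i => a (.inl (.inl i))
  | .inr (.inl p) => if hp : ¬ ((p.2 : ℕ) = 0 ∧ (p.1 : ℕ) ≠ 0) then a (.inl (.inr ⟨p, hp⟩)) else 0
  | .inr (.inr p) => a (.inr p)

/-- The edges after the gauge. -/
def evG (a : MIdx K → H →L[ℂ] H) : RIdx K → H →L[ℂ] H
  | .inl i => a (.inl (.inl i))
  | .inr (.inl p) => gaugedBlock (fun q => a (.inl (.inr q))) p.1 p.2
  | .inr (.inr p) => herm (fun q => a (.inr q)) p.1 p.2

lemma evG_of_not_star (a : MIdx K → H →L[ℂ] H) {l : RIdx K} (hl : ¬ Star l) :
    evG a l = lcomb (zG a) l := by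
  rcases l with i | p | p
  · rfl
  · simp only [Star, not_or] at hl
    simp only [evG, gaugedBlock, lcomb, zG, dif_neg hl.1, dif_neg hl.2]
  · rfl

variable {Ω : H} {Ω' : H'} {a : MIdx K → H →L[ℂ] H} {b : RIdx K → H' →L[ℂ] H'}

lemma single_le_vn {X : ι → H →L[ℂ] H} (i : ι) {x : H →L[ℂ] H} (hx : x ∈ single X i) :
    x ∈ vn (Set.range X) := by
  refine (isClosed_vn _).closure_subset_iff.2 ?_ hx
  intro y hy
  have : Algebra.adjoin ℂ ({X i} : Set (H →L[ℂ] H)) ≤ (vnSub (Set.range X)).toSubalgebra :=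
    Algebra.adjoin_le (Set.singleton_subset_iff.2 (mem_vnSub.2 (subset_vn _ ⟨i, rfl⟩)))
  exact mem_vnSub.1 (this hy)

lemma continuous_piece (hS : SemiGoal) (K i : ℕ) : Continuous (piece K i) := by
  obtain ⟨hF, -, -, -, -, hI, -⟩ := hS
  exact hI.comp ((continuous_const.add hF).div_const _)

lemma evG_star (hS : SemiGoal) (ha : IsSys Ω a) {l : RIdx K} (hl : Star l) :
    ∃ p : YIdx K, Star (.inr (.inl p.1) : RIdx K) ∧ evG a l ∈ single a (.inl (.inr p)) := by
  rcases l with i | p | p
  · exact hl.elim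
  · simp only [Star] at hl
    simp only [evG, gaugedBlock]
    split_ifs with h1 h2
    · exact ⟨⟨(p.1, p.2), fun hh => h1.2 hh.1⟩, Or.inl h1,
        cfc_mem_single ha.toIsSC _ (continuous_piece hS 2 1)⟩
    · exact ⟨⟨(p.2, p.1), fun hh => h2.2 hh.1⟩, Or.inl h2,
        cfc_mem_single ha.toIsSC _ (continuous_piece hS 2 1)⟩
    · exact absurd hl (not_or.2 ⟨h1, h2⟩)
  · exact hl.elim

lemma evG_mem (hS : SemiGoal) (ha : IsSys Ω a) (l : RIdx K) : evG a l ∈ vn (Set.range a) := by
  by_cases hl : Star l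
  · obtain ⟨p, -, hp⟩ := evG_star hS ha hl
    exact single_le_vn _ hp
  · rw [evG_of_not_star a hl, lcomb_eq]
    refine vn_sum _ fun k _ => vn_smul _ ?_
    rcases k with i | p | p
    · exact subset_vn _ ⟨_, rfl⟩
    · simp only [zG]
      split_ifs <;> first | exact vn_zero | exact subset_vn _ ⟨_, rfl⟩
    · exact subset_vn _ ⟨_, rfl⟩

lemma lcomb_mem (b : RIdx K → H' →L[ℂ] H') (l : RIdx K) : lcomb b l ∈ vn (Set.range b) := by
  rw [lcomb_eq]
  exact vn_sum _ fun k _ => vn_smul _ (subset_vn _ ⟨k, rfl⟩)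

lemma split_gauged (hS : SemiGoal) (ha : IsSys Ω a) {e : RIdx K} (he : ¬ Star e)
    (L : List (RIdx K)) :
    tr Ω (evG a e * wprod (evG a) L) =
      spl Ω (evG a) (fun l => if l = rev e then 1 else 0) 1 L 1 := by
  refine split_edge ha.toIsSC (evG a) (zG a) e (evG_of_not_star a he) (fun k hk => ?_) L
  have hks : ¬ Star k := fun h => he ((star_cw hk).1 h)
  have hex : ∃ i, a i = zG a k ∧ (∀ k', k' ≠ k → zG a k' ∈ others a i) ∧
      ∀ p : YIdx K, Star (.inr (.inl p.1) : RIdx K) → (.inl (.inr p) : MIdx K) ≠ i := by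
    rcases k with i | p | p
    · refine ⟨.inl (.inl i), rfl, ?_, fun p _ => by simp⟩
      rintro (j | q | q) hne
      · exact mem_others (by simpa using hne)
      · simp only [zG]
        split_ifs <;> first | exact zero_mem _ | exact mem_others (by simp)
      · exact mem_others (by simp)
    · have hp : ¬ ((p.2 : ℕ) = 0 ∧ (p.1 : ℕ) ≠ 0) := fun h => hks (Or.inr h)
      refine ⟨.inl (.inr ⟨p, hp⟩), by simp only [zG, dif_pos hp], ?_, ?_⟩
      · rintro (j | q | q) hne
        · exact mem_others (by simp)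
        · simp only [zG]
          split_ifs <;> first | exact zero_mem _ | exact mem_others (by simpa [Subtype.ext_iff] using hne)
        · exact mem_others (by simp)
      · intro q hq h
        simp only [Sum.inl.injEq, Sum.inr.injEq] at h
        subst h
        exact hks hq
    · refine ⟨.inr p, rfl, ?_, fun p _ => by simp⟩
      rintro (j | q | q) hne
      · exact mem_others (by simp)
      · simp only [zG]
        split_ifs <;> first | exact zero_mem _ | exact mem_others (by simp)
      · exact mem_others (by simpa using hne)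
  obtain ⟨i, hi, hothers, hstar⟩ := hex
  refine ⟨i, hi, fun l => ?_⟩
  by_cases hl : Star l
  · have h0 : cw k l = 0 := by
      by_contra h
      exact hks ((star_cw h).2 hl)
    obtain ⟨p, hp, hmem⟩ := evG_star hS ha hl
    rw [h0, zero_smul, sub_zero]
    exact single_le_others (hstar p hp) hmem
  · rw [evG_of_not_star a hl, hi, sum_erase_eq]
    exact Subalgebra.sum_mem _ fun k' hk' =>
      Subalgebra.smul_mem _ (hothers k' (Finset.ne_of_mem_erase hk')) _

lemma split_raw (hb : IsSys Ω' b) (e : RIdx K) (L : List (RIdx K)) :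
    tr Ω' (lcomb b e * wprod (lcomb b) L) =
      spl Ω' (lcomb b) (fun l => if l = rev e then 1 else 0) 1 L 1 := by
  refine split_edge hb.toIsSC (lcomb b) b e rfl (fun k _ => ⟨k, rfl, fun l => ?_⟩) L
  rw [sum_erase_eq]
  exact Subalgebra.sum_mem _ fun k' hk' =>
    Subalgebra.smul_mem _ (mem_others (Finset.ne_of_mem_erase hk')) _

/-! ## The star at the first point -/

/-- The points other than the first. -/
abbrev Leaf (K : ℕ) : Type := {j : Fin K // (j : ℕ) ≠ 0}

section Double

variable {γ κ : Type} [DecidableEq γ] [DecidableEq κ]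

/-- Each letter replaced by two. -/
def dbl (p m : γ → κ) (M : List γ) : List κ := M.flatMap fun j => [p j, m j]

/-- The recursion of squares of semicircular variables. -/
def zsum (F : List γ → ℂ) (j₀ : γ) : List γ → List γ → ℂ
  | _, [] => 0
  | M₁, j :: M₂ =>
      (if j = j₀ then F (M₁ ++ [j₀]) * F M₂ else 0) + zsum F j₀ (M₁ ++ [j]) M₂

lemma dbl_append (p m : γ → κ) (M₁ M₂ : List γ) :
    dbl p m (M₁ ++ M₂) = dbl p m M₁ ++ dbl p m M₂ := by
  simp [dbl]

lemma zrec (Ω : H) (hΩ : ‖Ω‖ = 1) (ev : κ → H →L[ℂ] H) (p m : γ → κ) (hm : Function.Injective m)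
    (hsplit : ∀ j L, tr Ω (ev (p j) * wprod ev L) =
      spl Ω ev (fun l => if l = m j then 1 else 0) 1 L 1)
    (htr : ∀ A B, tr Ω (wprod ev A * wprod ev B) = tr Ω (wprod ev B * wprod ev A))
    (hodd : ∀ j j' M, p j' = m j → tr Ω (ev (m j) * wprod ev (dbl p m M)) = 0)
    (j₀ : γ) (M : List γ) :
    tr Ω (wprod ev (dbl p m (j₀ :: M))) =
      tr Ω (wprod ev (dbl p m M)) +
        zsum (fun M => tr Ω (wprod ev (dbl p m M))) j₀ [] M := by
  let δ : κ → ℂ := fun l => if l = m j₀ then 1 else 0
  have hgen : ∀ M₂ M₁, spl Ω ev δ (ev (m j₀) * wprod ev (dbl p m M₁)) (dbl p m M₂) 1 =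
      zsum (fun M => tr Ω (wprod ev (dbl p m M))) j₀ M₁ M₂ := by
    intro M₂
    induction M₂ with
    | nil => intro M₁; rfl
    | cons j M₂ ih =>
      intro M₁
      have e : dbl p m (j :: M₂) = p j :: m j :: dbl p m M₂ := by simp [dbl]
      rw [e, spl, spl, zsum]
      have hfirst : δ (p j) * tr Ω (ev (m j₀) * wprod ev (dbl p m M₁)) = 0 := by
        by_cases h : p j = m j₀
        · simp [hodd j₀ j M₁ h]
        · simp [δ, h]
      rw [hfirst, zero_mul, zero_add]
      have hnext := ih (M₁ ++ [j])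
      rw [dbl_append, wprod_append, show dbl p m [j] = [p j, m j] from rfl, wprod_cons,
        wprod_cons, wprod_nil, mul_one, ← mul_assoc, ← mul_assoc] at hnext
      rw [hnext]
      congr 1
      by_cases hj : j = j₀
      · subst hj
        have hrot := htr [m j] (dbl p m M₁ ++ [p j])
        simp only [wprod_append, wprod_cons, wprod_nil, mul_one] at hrot
        simp only [dbl_append, wprod_append, δ, if_true, one_mul, mul_one, mul_assoc]
        rw [hrot, show dbl p m [j] = [p j, m j] from rfl]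
        simp [wprod_cons, wprod_nil, mul_assoc]
      · have : ¬ m j = m j₀ := fun h => hj (hm h)
        simp [δ, this, hj]
  have e : dbl p m (j₀ :: M) = p j₀ :: m j₀ :: dbl p m M := by simp [dbl]
  rw [e, wprod_cons, hsplit, spl]
  have h := hgen M []
  simp only [show dbl p m [] = [] from rfl, wprod_nil, mul_one] at h
  rw [← h]
  simp [δ, tr_one hΩ]

lemma zsum_congr (F G : List γ → ℂ) (j₀ : γ) (n : ℕ) (h : ∀ M, M.length ≤ n → F M = G M) :
    ∀ M₂ M₁ : List γ, M₁.length + M₂.length ≤ n → zsum F j₀ M₁ M₂ = zsum G j₀ M₁ M₂ := by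
  intro M₂
  induction M₂ with
  | nil => intros; rfl
  | cons j M₂ ih =>
    intro M₁ hlen
    simp only [List.length_cons] at hlen
    simp only [zsum]
    rw [ih (M₁ ++ [j]) (by simp; omega), h M₂ (by omega), h (M₁ ++ [j₀]) (by simp; omega)]

lemma zrec_unique (F G : List γ → ℂ) (h0 : F [] = G [])
    (hF : ∀ j M, F (j :: M) = F M + zsum F j [] M)
    (hG : ∀ j M, G (j :: M) = G M + zsum G j [] M) (M : List γ) : F M = G M := by
  induction hn : M.length using Nat.strong_induction_on generalizing M with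
  | h n ih =>
    subst hn
    cases M with
    | nil => exact h0
    | cons j M =>
      rw [hF, hG, ih M.length (by simp) M rfl,
        zsum_congr F G j M.length (fun N hN => ih N.length (by simp; omega) N rfl) M [] (by simp)]

end Double

/-- The first point. -/
def zero' (hK : 2 ≤ K) : Fin K := ⟨0, by omega⟩

/-- The edge to a leaf. -/
def out (hK : 2 ≤ K) (j : Leaf K) : RIdx K := .inr (.inl (zero' hK, j.1))

/-- The edge from a leaf. -/
def back (hK : 2 ≤ K) (j : Leaf K) : RIdx K := .inr (.inl (j.1, zero' hK))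

/-- The variable of a leaf. -/
def leafIdx (hK : 2 ≤ K) (j : Leaf K) : MIdx K :=
  .inl (.inr ⟨(zero' hK, j.1), fun h => h.2 rfl⟩)

lemma leafIdx_injective (hK : 2 ≤ K) : Function.Injective (leafIdx hK) := by
  intro j j' h
  simpa [leafIdx, Subtype.ext_iff] using h

lemma integral_sq_piece (hS : SemiGoal) (r : ℕ) :
    (∫ t in (-2 : ℝ)..2, scDens t * (piece 2 1 t * piece 2 1 t) ^ r) =
      ∫ t in (-2 : ℝ)..2, scDens t * (t * t) ^ r := by
  obtain ⟨-, -, -, -, h2, -, -, -, -, hinv, -, hpiece, -⟩ := hS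
  have hd : Continuous scDens := by unfold scDens; fun_prop
  have hp : Continuous fun t => scDens t * (t * t) ^ r := by fun_prop
  have heven : ∀ f : ℝ → ℝ, (∀ t, f (-t) = f t) → Continuous f →
      (∫ t in (-2 : ℝ)..0, f t) = ∫ t in (0 : ℝ)..2, f t ∧
        (∫ t in (-2 : ℝ)..2, f t) = 2 * ∫ t in (0 : ℝ)..2, f t := by
    intro f hf hc
    have e : (∫ t in (-2 : ℝ)..0, f t) = ∫ t in (0 : ℝ)..2, f t := by
      conv_lhs => arg 1; ext t; rw [← hf t]
      rw [intervalIntegral.integral_comp_neg]
      simp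
    refine ⟨e, ?_⟩
    rw [← intervalIntegral.integral_add_adjacent_intervals (hc.intervalIntegrable _ 0)
      (hc.intervalIntegrable 0 _), e, two_mul]
  have hdn : ∀ t, scDens (-t) = scDens t := fun t => by simp [scDens]
  obtain ⟨e1, e2⟩ := heven scDens hdn hd
  have hF2 : (∫ t in (-2 : ℝ)..2, scDens t) = 1 := by simpa [scF] using h2
  have hF0 : scF 0 = 1 / 2 := by
    have h3 : scF 0 = ∫ t in (-2 : ℝ)..0, scDens t := by simp [scF]
    rw [h3, e1]
    linarith
  have hA : scInv (1 / 2) = 0 := hF0 ▸ hinv 0 (by norm_num)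
  have hB : scInv 1 = 2 := h2 ▸ hinv 2 (by norm_num)
  have hs := hpiece 2 1 (fun t => (t * t) ^ r) (by norm_num) (by norm_num) (by fun_prop)
  norm_num [hA, hB] at hs
  rw [hs, (heven _ (fun t => by simp [hdn]) hp).2]

/-- On the star the two families have the same moments. -/
lemma star_moments (hS : SemiGoal) (hC : CalcGoal.{u}) (hK : 2 ≤ K) (ha : IsSys Ω a)
    (hb : IsSys Ω' b) (M : List (Leaf K)) :
    tr Ω (wprod (evG a) (dbl (out hK) (back hK) M)) =
      tr Ω' (wprod (lcomb b) (dbl (out hK) (back hK) M)) := by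
  let q := leafIdx hK
  let sq : Leaf K → H →L[ℂ] H := fun j => a (q j) * a (q j)
  let gg : Leaf K → H →L[ℂ] H := fun j => cfc (piece 2 1) (a (q j)) * cfc (piece 2 1) (a (q j))
  have hgg : wprod (evG a) (dbl (out hK) (back hK) M) = wprod gg M := by
    induction M with
    | nil => rfl
    | cons j M ih =>
      rw [show dbl (out hK) (back hK) (j :: M) =
        out hK j :: back hK j :: dbl (out hK) (back hK) M by simp [dbl], wprod_cons, wprod_cons,
        wprod_cons, ih, ← mul_assoc]
      simp [gg, q, leafIdx, evG, out, back, gaugedBlock, zero', j.2]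
  have hsq : ∀ M, tr Ω (wprod sq M) = tr Ω (wprod a (dbl q q M)) := by
    intro M
    congr 1
    induction M with
    | nil => rfl
    | cons j M ih =>
      rw [show dbl q q (j :: M) = q j :: q j :: dbl q q M by simp [dbl], wprod_cons, wprod_cons,
        wprod_cons, ih, ← mul_assoc]
  have hgc := continuous_piece hS 2 1
  have hmarg : ∀ j r, tr Ω (gg j ^ r) = tr Ω (sq j ^ r) := by
    intro j r
    have h1 : gg j ^ r = cfc (fun t => (piece 2 1 t * piece 2 1 t) ^ r) (a (q j)) := by
      rw [cfc_pow (fun t => piece 2 1 t * piece 2 1 t) r (a (q j)) (hgc.mul hgc).continuousOn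
        (ha.sa _), cfc_mul (piece 2 1) (piece 2 1) (a (q j)) hgc.continuousOn hgc.continuousOn]
    have h2 : sq j ^ r = cfc (fun t : ℝ => (t * t) ^ r) (a (q j)) := by
      rw [cfc_pow (fun t : ℝ => t * t) r (a (q j)) (by fun_prop) (ha.sa _),
        cfc_mul (fun t : ℝ => t) (fun t => t) (a (q j)) (by fun_prop) (by fun_prop),
        cfc_id' ℝ (a (q j)) (ha.sa _)]
    rw [h1, h2, ((hC Ω a ha.toIsSC (q j)).2 (fun t => (piece 2 1 t * piece 2 1 t) ^ r)
      ((hgc.mul hgc).pow r)).2.2,
      ((hC Ω a ha.toIsSC (q j)).2 _ (by fun_prop)).2.2, integral_sq_piece hS r]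
  rw [hgg, wprod_eq_of_marginals ha q (leafIdx_injective hK) gg sq
    (fun j => mul_mem (cfc_mem_single ha.toIsSC _ hgc) (cfc_mem_single ha.toIsSC _ hgc))
    (fun j => mul_mem (mem_single a _) (mem_single a _)) hmarg, hsq]
  refine zrec_unique (fun M => tr Ω (wprod a (dbl q q M)))
    (fun M => tr Ω' (wprod (lcomb b) (dbl (out hK) (back hK) M)))
    (by simp [dbl, wprod_nil, tr_one ha.unit, tr_one hb.unit]) ?_ ?_ M
  · refine fun j M => zrec Ω ha.unit a q q (leafIdx_injective hK) (fun j L => split_spl ha.toIsSC _ L)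
      (fun A B => ha.tracial _ (mem_vn_wprod a A) _ (mem_vn_wprod a B)) (fun j j' M _ => ?_) j M
    rw [← wprod_cons]
    refine tr_odd ha.toIsSC _ ⟨M.length, ?_⟩
    induction M with
    | nil => rfl
    | cons i M ih => simp [dbl] at ih ⊢; omega
  · refine fun j M => zrec Ω' hb.unit (lcomb b) (out hK) (back hK) ?_ (fun j L => split_raw hb _ L)
      (fun A B => hb.tracial _ (vn_wprod A fun l _ => lcomb_mem b l) _
        (vn_wprod B fun l _ => lcomb_mem b l)) (fun j j' M h => ?_) j M
    · intro x y h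
      simpa [back, Subtype.ext_iff] using h
    · simp [out, back, zero'] at h
      exact absurd (congrArg Fin.val h.1) (Ne.symm j.2)

lemma star_path (hK : 2 ≤ K) : ∀ (L : List (RIdx K)), (∀ e ∈ L, Star e) →
    IsPath (zero' hK) L (zero' hK) → ∃ M, L = dbl (out hK) (back hK) M := by
  intro L
  induction hn : L.length using Nat.strong_induction_on generalizing L with
  | h n ih =>
    subst hn
    intro hL hp
    rcases L with _ | ⟨e, _ | ⟨f, L⟩⟩
    · exact ⟨[], rfl⟩
    · have := hL e List.mem_cons_self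
      rcases e with i | p | p <;> simp [Star] at this
      simp [IsPath, src, dst] at hp
      simp [hp.1, hp.2, zero'] at this
    · have he := hL e List.mem_cons_self
      have hf := hL f (by simp)
      rcases e with i | p | p <;> simp [Star] at he
      rcases f with i | r | r <;> simp [Star] at hf
      obtain ⟨p1, p2⟩ := p
      obtain ⟨r1, r2⟩ := r
      simp [IsPath, src, dst] at hp
      obtain ⟨rfl, rfl, hp⟩ := hp
      simp [zero'] at he
      have hr : r2 = zero' hK := by
        rcases hf with ⟨h1, -⟩ | ⟨h1, -⟩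
        · exact absurd h1 he
        · exact Fin.ext h1
      subst hr
      obtain ⟨M, hM⟩ := ih L.length (by simp) L rfl
        (fun g hg => hL g (by simp [hg])) hp
      exact ⟨⟨_, he⟩ :: M, by simp [dbl, out, back] at hM ⊢; exact hM⟩

/-! ## All paths -/

lemma spl_congr {n : ℕ}
    (h : ∀ (x : Fin K) (L : List (RIdx K)), L.length ≤ n → IsPath x L x →
      tr Ω (wprod (evG a) L) = tr Ω' (wprod (lcomb b) L))
    (e : RIdx K) : ∀ (L pre : List (RIdx K)) (x : Fin K), pre.length + L.length ≤ n →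
      IsPath (dst e) pre x → IsPath x L (src e) →
      spl Ω (evG a) (fun l => if l = rev e then 1 else 0) (wprod (evG a) pre) L 1 =
        spl Ω' (lcomb b) (fun l => if l = rev e then 1 else 0) (wprod (lcomb b) pre) L 1 := by
  intro L
  induction L with
  | nil => intros; rfl
  | cons l L ih =>
    intro pre x hn hpre hL
    simp only [List.length_cons] at hn
    obtain ⟨hl1, hL⟩ := hL
    simp only [spl, mul_one]
    have hnext := ih (pre ++ [l]) (dst l) (by simp; omega)
      ((isPath_append _ _ _ _).2 ⟨x, hpre, hl1, rfl⟩) hL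
    simp only [wprod_append, wprod_cons, wprod_nil, mul_one] at hnext
    rw [hnext]
    congr 1
    by_cases hl : l = rev e
    · subst hl
      rw [src_rev] at hl1
      subst hl1
      rw [dst_rev] at hL
      rw [h _ pre (by omega) hpre, h _ L (by omega) hL]
    · simp [hl]

/-- Closed paths have the same moments. -/
theorem path_moments (hS : SemiGoal) (hC : CalcGoal.{u}) (hK : 2 ≤ K) (ha : IsSys Ω a)
    (hb : IsSys Ω' b) : ∀ (L : List (RIdx K)) (x : Fin K), IsPath x L x →
      tr Ω (wprod (evG a) L) = tr Ω' (wprod (lcomb b) L) := by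
  have hrot : ∀ A B : List (RIdx K),
      tr Ω (wprod (evG a) (A ++ B)) = tr Ω (wprod (evG a) (B ++ A)) ∧
      tr Ω' (wprod (lcomb b) (A ++ B)) = tr Ω' (wprod (lcomb b) (B ++ A)) := by
    intro A B
    simp only [wprod_append]
    exact ⟨ha.tracial _ (vn_wprod A fun l _ => evG_mem hS ha l) _
      (vn_wprod B fun l _ => evG_mem hS ha l),
      hb.tracial _ (vn_wprod A fun l _ => lcomb_mem b l) _
      (vn_wprod B fun l _ => lcomb_mem b l)⟩
  intro L
  induction hn : L.length using Nat.strong_induction_on generalizing L with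
  | h n ih =>
    subst hn
    intro x hL
    by_cases hstar : ∀ e ∈ L, Star e
    · have hzero : ∀ M, (∀ e ∈ M, Star e) → IsPath (zero' hK) M (zero' hK) →
          tr Ω (wprod (evG a) M) = tr Ω' (wprod (lcomb b) M) := by
        intro M h1 h2
        obtain ⟨N, rfl⟩ := star_path hK M h1 h2
        exact star_moments hS hC hK ha hb N
      by_cases hx : x = zero' hK
      · subst hx; exact hzero L hstar hL
      · cases L with
        | nil => simp [wprod_nil, tr_one ha.unit, tr_one hb.unit]
        | cons e B =>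
          obtain ⟨h1, h2⟩ := hL
          have he := hstar e List.mem_cons_self
          rcases e with i | p | p <;> simp [Star] at he
          simp [src] at h1
          subst h1
          have hp2 : p.2 = zero' hK := by
            rcases he with ⟨h, -⟩ | ⟨h, -⟩
            · exact absurd (Fin.ext h) hx
            · exact Fin.ext h
          rw [← List.singleton_append, (hrot _ B).1, (hrot _ B).2]
          refine hzero _ (fun f hf => hstar f ?_) ?_
          · simp at hf ⊢; tauto
          · refine (isPath_append _ _ _ _).2 ⟨p.1, ?_, rfl, ?_⟩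
            · simpa [dst, hp2] using h2
            · simpa [IsPath, dst] using hp2
    · push Not at hstar
      obtain ⟨e, he, hne⟩ := hstar
      obtain ⟨A, B, rfl⟩ := List.append_of_mem he
      obtain ⟨y, hA, hy, hB⟩ : ∃ y, IsPath x A y ∧ src e = y ∧ IsPath (dst e) B x := by
        simpa [isPath_append, IsPath] using hL
      subst hy
      rw [(hrot A _).1, (hrot A _).2, List.cons_append, wprod_cons, wprod_cons,
        split_gauged hS ha hne, split_raw hb e]
      have hrest : ∀ (z : Fin K) (M : List (RIdx K)), M.length ≤ (B ++ A).length → IsPath z M z →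
          tr Ω (wprod (evG a) M) = tr Ω' (wprod (lcomb b) M) := fun z M hM hz =>
        ih M.length (by simp at hM ⊢; omega) M rfl z hz
      exact spl_congr hrest e (B ++ A) [] (dst e) (by simp) rfl
        ((isPath_append _ _ _ _).2 ⟨x, hB, hA⟩)

/-! ## Pairs with equal traces against all paths -/

variable (Ω Ω' a b) in
/-- Equal traces against the closing paths. -/
def Pair (p q : Fin K) (A : H →L[ℂ] H) (B : H' →L[ℂ] H') : Prop :=
  ∀ L, IsPath q L p → tr Ω (A * wprod (evG a) L) = tr Ω' (B * wprod (lcomb b) L)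

variable (Ω Ω' a b) in
/-- Right multiplications that keep the pairing. -/
def Rel (p q : Fin K) (A : H →L[ℂ] H) (B : H' →L[ℂ] H') : Prop :=
  ∀ r C D, Pair Ω Ω' a b r p C D → Pair Ω Ω' a b r q (C * A) (D * B)

lemma rel_edge (e : RIdx K) : Rel Ω Ω' a b (src e) (dst e) (evG a e) (lcomb b e) := by
  intro r C D h L hL
  have := h (e :: L) ⟨rfl, hL⟩
  simpa [wprod_cons, mul_assoc] using this

lemma rel_one (p : Fin K) : Rel Ω Ω' a b p p 1 1 := fun r C D h => by simpa using h

lemma rel_zero (p q : Fin K) : Rel Ω Ω' a b p q 0 0 := fun r C D _ L _ => by simp [tr]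

lemma Rel.add {p q : Fin K} {A A' : H →L[ℂ] H} {B B' : H' →L[ℂ] H'}
    (h : Rel Ω Ω' a b p q A B) (h' : Rel Ω Ω' a b p q A' B') :
    Rel Ω Ω' a b p q (A + A') (B + B') := fun r C D hr L hL => by
  simp only [mul_add, add_mul, tr_add, h r C D hr L hL, h' r C D hr L hL]

lemma Rel.smul {p q : Fin K} {A : H →L[ℂ] H} {B : H' →L[ℂ] H'} (c : ℂ)
    (h : Rel Ω Ω' a b p q A B) : Rel Ω Ω' a b p q (c • A) (c • B) := fun r C D hr L hL => by
  simp only [mul_smul_comm, smul_mul_assoc, tr_smul, h r C D hr L hL]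

lemma Rel.mul {p q s : Fin K} {A A' : H →L[ℂ] H} {B B' : H' →L[ℂ] H'}
    (h : Rel Ω Ω' a b p q A B) (h' : Rel Ω Ω' a b q s A' B') :
    Rel Ω Ω' a b p s (A * A') (B * B') := fun r C D hr => by
  simpa [mul_assoc] using h' r _ _ (h r C D hr)

lemma rel_sum {p q : Fin K} {γ : Type} (F : Finset γ) (A : γ → H →L[ℂ] H)
    (B : γ → H' →L[ℂ] H') (h : ∀ k ∈ F, Rel Ω Ω' a b p q (A k) (B k)) :
    Rel Ω Ω' a b p q (∑ k ∈ F, A k) (∑ k ∈ F, B k) := by
  classical
  induction F using Finset.induction_on with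
  | empty => simpa using rel_zero p q
  | insert k F hk ih =>
    rw [Finset.sum_insert hk, Finset.sum_insert hk]
    exact (h k (by simp)).add (ih fun j hj => h j (by simp [hj]))

lemma rel_tendsto {p q : Fin K} {A : ℕ → H →L[ℂ] H} {B : ℕ → H' →L[ℂ] H'} {A₀ : H →L[ℂ] H}
    {B₀ : H' →L[ℂ] H'} (hA : Tendsto A atTop (𝓝 A₀)) (hB : Tendsto B atTop (𝓝 B₀))
    (h : ∀ n, Rel Ω Ω' a b p q (A n) (B n)) : Rel Ω Ω' a b p q A₀ B₀ := fun r C D hr L hL => by
  have h1 := ((continuous_tr Ω).comp
    ((continuous_mul_const (wprod (evG a) L)).comp (continuous_const_mul C))).tendsto A₀ |>.comp hA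
  have h2 := ((continuous_tr Ω').comp
    ((continuous_mul_const (wprod (lcomb b) L)).comp (continuous_const_mul D))).tendsto B₀
      |>.comp hB
  exact tendsto_nhds_unique h1 (h2.congr fun n => (h n r C D hr L hL).symm)

lemma rel_cfc (ha : IsSys Ω a) (hb : IsSys Ω' b) (i : Fin K) {f : ℝ → ℝ} (hf : Continuous f) :
    Rel Ω Ω' a b i i (cfc f (a (.inl (.inl i)))) (cfc f (b (.inl i))) := by
  obtain ⟨P, hP⟩ := exists_poly_seq f hf
  refine rel_tendsto (tendsto_aeval_cfc (ha.sa _) (ha.bound _) hf hP)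
    (tendsto_aeval_cfc (hb.sa _) (hb.bound _) hf hP) fun n => ?_
  have hpow : ∀ m : ℕ, Rel Ω Ω' a b i i (a (.inl (.inl i)) ^ m) (b (.inl i) ^ m) := by
    intro m
    induction m with
    | zero => simpa using rel_one i
    | succ m ih => rw [pow_succ, pow_succ]; exact ih.mul (rel_edge (.inl i))
  induction P n using Polynomial.induction_on' with
  | add x y hx hy => rw [map_add, map_add]; exact hx.add hy
  | monomial m c =>
    rw [aeval_monomial, aeval_monomial, IsScalarTower.algebraMap_apply ℝ ℂ (H →L[ℂ] H),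
      IsScalarTower.algebraMap_apply ℝ ℂ (H' →L[ℂ] H'), ← Algebra.smul_def, ← Algebra.smul_def]
    exact (hpow m).smul _

lemma rel_tr (hS : SemiGoal) (hC : CalcGoal.{u}) (hK : 2 ≤ K) (ha : IsSys Ω a) (hb : IsSys Ω' b)
    {p : Fin K} {A : H →L[ℂ] H} {B : H' →L[ℂ] H'} (h : Rel Ω Ω' a b p p A B) :
    tr Ω A = tr Ω' B := by
  simpa [wprod_nil] using h p 1 1
    (fun L hL => by simpa using path_moments hS hC hK ha hb L p hL) [] rfl

end Vale.Agent.P086.Gauge

namespace Vale.Agent.P086

open Gauge

universe u v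

theorem gaugeGoal (hS : SemiGoal) (hC : CalcGoal.{u}) (hM : MatGoal.{u}) (hM' : MatGoal.{v}) :
    GaugeGoal.{u, v} := by
  intro H _ _ _ H' _ _ _ K Ω Ω' a b hK ha hb l
  obtain ⟨-, hprod, hsmul, hone⟩ := hM K Ω (by omega : 0 < K)
  obtain ⟨-, hprod', hsmul', hone'⟩ := hM' K Ω' (by omega : 0 < K)
  let c : ℂ := ((Real.sqrt K)⁻¹ : ℂ)
  let BG : Fin 3 → Fin K → Fin K → H →L[ℂ] H :=
    ![xBlock fun i => a (.inl (.inl i)),
      fun i j => c • gaugedBlock (fun p => a (.inl (.inr p))) i j,
      fun i j => c • herm (fun p => a (.inr p)) i j]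
  let BR : Fin 3 → Fin K → Fin K → H' →L[ℂ] H' :=
    ![xBlock fun i => b (.inl i),
      fun i j => c • herm (fun p => b (.inr (.inl p))) i j,
      fun i j => c • herm (fun p => b (.inr (.inr p))) i j]
  have hG : ∀ k, triple a k = matRep (BG k) := by
    intro k; fin_cases k
    · rfl
    · exact hsmul c _
    · exact hsmul c _
  have hR : ∀ k, rawTriple b k = matRep (BR k) := by
    intro k; fin_cases k
    · rfl
    · exact hsmul' c _
    · exact hsmul' c _
  have h0 : ∀ p q, Rel Ω Ω' a b p q (xBlock (fun i => a (.inl (.inl i))) p q)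
      (xBlock (fun i => b (.inl i)) p q) := by
    intro p q
    unfold xBlock
    split_ifs with h
    · subst h; exact rel_cfc ha hb p (continuous_piece hS _ _)
    · exact rel_zero p q
  have h1 : ∀ p q, Rel Ω Ω' a b p q (c • gaugedBlock (fun p => a (.inl (.inr p))) p q)
      (c • herm (fun p => b (.inr (.inl p))) p q) := fun p q =>
    (rel_edge (.inr (.inl (p, q)))).smul c
  have h2 : ∀ p q, Rel Ω Ω' a b p q (c • herm (fun p => a (.inr p)) p q)
      (c • herm (fun p => b (.inr (.inr p))) p q) := fun p q =>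
    (rel_edge (.inr (.inr (p, q)))).smul c
  have hblock : ∀ k p q, Rel Ω Ω' a b p q (BG k p q) (BR k p q) :=
    Fin.forall_fin_succ.2 ⟨h0, Fin.forall_fin_succ.2 ⟨h1, Fin.forall_fin_succ.2
      ⟨h2, fun k => k.elim0⟩⟩⟩
  have key : ∀ l : List (Fin 3), ∃ A B, wprod (triple a) l = matRep A ∧
      wprod (rawTriple b) l = matRep B ∧ ∀ p q, Rel Ω Ω' a b p q (A p q) (B p q) := by
    intro l
    induction l with
    | nil =>
      refine ⟨_, _, hone.symm, hone'.symm, fun p q => ?_⟩
      split_ifs with h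
      · subst h; exact rel_one p
      · exact rel_zero p q
    | cons k l ih =>
      obtain ⟨A, B, hA, hB, hAB⟩ := ih
      exact ⟨_, _, by rw [wprod_cons, hA, hG, (hprod (BG k) A).1],
        by rw [wprod_cons, hB, hR, (hprod' (BR k) B).1],
        fun p q => rel_sum _ _ _ fun r _ => (hblock k p r).mul (hAB r q)⟩
  obtain ⟨A, B, hA, hB, hAB⟩ := key l
  rw [hA, hB, (hprod A A).2.2.2.1, (hprod' B B).2.2.2.1]
  exact congrArg _ (Finset.sum_congr rfl fun i _ => rel_tr hS hC hK ha hb (hAB i i))

end Vale.Agent.P086
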