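import Vale.Agent.P086.Spec
import Vale.Agent.P086.Lemmas

/-!
# Consequences of the recursion: linear combinations, continuous functions, equal marginals
-/

noncomputable section

namespace Vale.Agent.P086.Gauge

open scoped InnerProductSpace BigOperators Topology
open Filter Polynomial

universe u

set_option linter.unusedSectionVars false

variable {H : Type u} [NormedAddCommGroup H] [InnerProductSpace ℂ H] [CompleteSpace H]
variable {ι : Type} {κ : Type}

/-- The vector state as a continuous functional. -/
def trC (Ω : H) : (H →L[ℂ] H) →L[ℂ] ℂ :=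
  (innerSL ℂ Ω).comp (ContinuousLinearMap.apply ℂ H Ω)

lemma trC_apply (Ω : H) (a : H →L[ℂ] H) : trC Ω a = tr Ω a := rfl

@[fun_prop]
lemma continuous_tr (Ω : H) : Continuous (tr Ω) := (trC Ω).continuous

lemma tr_sub (Ω : H) (a b : H →L[ℂ] H) : tr Ω (a - b) = tr Ω a - tr Ω b := map_sub (trC Ω) a b

lemma tr_zero (Ω : H) : tr Ω (0 : H →L[ℂ] H) = 0 := map_zero (trC Ω)

lemma tr_sum (Ω : H) {γ : Type*} (F : Finset γ) (f : γ → H →L[ℂ] H) :
    tr Ω (∑ k ∈ F, f k) = ∑ k ∈ F, tr Ω (f k) := map_sum (trC Ω) f F

lemma tr_one {Ω : H} (h : ‖Ω‖ = 1) : tr Ω (1 : H →L[ℂ] H) = 1 := by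
  simp [tr, inner_self_eq_norm_sq_to_K, h]

/-- The pairing sum along a list. -/
def spl (Ω : H) (ev : κ → H →L[ℂ] H) (c : κ → ℂ) :
    (H →L[ℂ] H) → List κ → (H →L[ℂ] H) → ℂ
  | _, [], _ => 0
  | pre, a :: v, Y => c a * tr Ω pre * tr Ω (wprod ev v * Y) + spl Ω ev c (pre * ev a) v Y

lemma spl_append (Ω : H) (ev : κ → H →L[ℂ] H) (c : κ → ℂ) (pre : H →L[ℂ] H) (l m : List κ)
    (Y : H →L[ℂ] H) :
    spl Ω ev c pre (l ++ m) Y =
      spl Ω ev c pre l (wprod ev m * Y) + spl Ω ev c (pre * wprod ev l) m Y := by
  induction l generalizing pre with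
  | nil => simp [spl, wprod_nil]
  | cons a l ih => simp [spl, ih, wprod_append, wprod_cons, mul_assoc, add_assoc]

lemma spl_eq_zero (Ω : H) (ev : κ → H →L[ℂ] H) (c : κ → ℂ) (l : List κ) (h : ∀ a ∈ l, c a = 0)
    (pre Y : H →L[ℂ] H) : spl Ω ev c pre l Y = 0 := by
  induction l generalizing pre with
  | nil => rfl
  | cons a l ih =>
    simp [spl, h a List.mem_cons_self, ih (fun b hb => h b (List.mem_cons_of_mem _ hb))]

lemma spl_coef_sum (Ω : H) (ev : κ → H →L[ℂ] H) {γ : Type*} (F : Finset γ) (c : γ → κ → ℂ)
    (pre : H →L[ℂ] H) (l : List κ) (Y : H →L[ℂ] H) :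
    spl Ω ev (fun a => ∑ k ∈ F, c k a) pre l Y = ∑ k ∈ F, spl Ω ev (c k) pre l Y := by
  induction l generalizing pre with
  | nil => simp [spl]
  | cons a l ih => simp [spl, ih, Finset.sum_mul, Finset.sum_add_distrib]

lemma spl_coef_smul (Ω : H) (ev : κ → H →L[ℂ] H) (r : ℂ) (c : κ → ℂ)
    (pre : H →L[ℂ] H) (l : List κ) (Y : H →L[ℂ] H) :
    spl Ω ev (fun a => r * c a) pre l Y = r * spl Ω ev c pre l Y := by
  induction l generalizing pre with
  | nil => simp [spl]
  | cons a l ih => simp [spl, ih, mul_add, mul_assoc]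

lemma continuous_spl_left (Ω : H) (ev : κ → H →L[ℂ] H) (c : κ → ℂ) (l : List κ)
    (Y : H →L[ℂ] H) : Continuous fun pre => spl Ω ev c pre l Y := by
  induction l with
  | nil => exact continuous_const
  | cons a l ih =>
    simp only [spl]
    have h2 := ih.comp (continuous_mul_const (ev a))
    exact (((continuous_tr Ω).const_mul (c a)).mul_const _).add h2

lemma continuous_spl_right (Ω : H) (ev : κ → H →L[ℂ] H) (c : κ → ℂ) (l : List κ)
    (pre : H →L[ℂ] H) : Continuous fun Y => spl Ω ev c pre l Y := by
  induction l generalizing pre with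
  | nil => exact continuous_const
  | cons a l ih =>
    simp only [spl]
    exact (((continuous_tr Ω).comp (continuous_const_mul _)).const_mul _).add (ih _)

lemma spl_left_add (Ω : H) (ev : κ → H →L[ℂ] H) (c : κ → ℂ) (l : List κ) (p q Y : H →L[ℂ] H) :
    spl Ω ev c (p + q) l Y = spl Ω ev c p l Y + spl Ω ev c q l Y := by
  induction l generalizing p q with
  | nil => simp [spl]
  | cons a l ih => simp [spl, ih, tr_add, add_mul]; ring

lemma spl_left_smul (Ω : H) (ev : κ → H →L[ℂ] H) (c : κ → ℂ) (l : List κ) (r : ℂ)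
    (p Y : H →L[ℂ] H) : spl Ω ev c (r • p) l Y = r * spl Ω ev c p l Y := by
  induction l generalizing p with
  | nil => simp [spl]
  | cons a l ih => simp [spl, ih, tr_smul]; ring

lemma spl_right_add (Ω : H) (ev : κ → H →L[ℂ] H) (c : κ → ℂ) (l : List κ) (p Y Z : H →L[ℂ] H) :
    spl Ω ev c p l (Y + Z) = spl Ω ev c p l Y + spl Ω ev c p l Z := by
  induction l generalizing p with
  | nil => simp [spl]
  | cons a l ih => simp [spl, ih, tr_add, mul_add]; ring

lemma spl_right_smul (Ω : H) (ev : κ → H →L[ℂ] H) (c : κ → ℂ) (l : List κ) (r : ℂ)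
    (p Y : H →L[ℂ] H) : spl Ω ev c p l (r • Y) = r * spl Ω ev c p l Y := by
  induction l generalizing p with
  | nil => simp [spl]
  | cons a l ih => simp [spl, ih, tr_smul]; ring

/-- `spl` as a continuous functional of the prefix. -/
def splL (Ω : H) (ev : κ → H →L[ℂ] H) (c : κ → ℂ) (l : List κ) (Y : H →L[ℂ] H) :
    (H →L[ℂ] H) →L[ℂ] ℂ where
  toFun p := spl Ω ev c p l Y
  map_add' p q := spl_left_add Ω ev c l p q Y
  map_smul' r p := spl_left_smul Ω ev c l r p Y
  cont := continuous_spl_left Ω ev c l Y

/-- `spl` as a continuous functional of the suffix. -/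
def splR (Ω : H) (ev : κ → H →L[ℂ] H) (c : κ → ℂ) (pre : H →L[ℂ] H) (l : List κ) :
    (H →L[ℂ] H) →L[ℂ] ℂ where
  toFun Y := spl Ω ev c pre l Y
  map_add' p q := spl_right_add Ω ev c l pre p q
  map_smul' r p := spl_right_smul Ω ev c l r pre p
  cont := continuous_spl_right Ω ev c l pre

lemma spl_sum_fin (Ω : H) (ev : κ → H →L[ℂ] H) (c : κ → ℂ) (l : List κ) (pre Y : H →L[ℂ] H) :
    spl Ω ev c pre l Y = ∑ k : Fin l.length,
      c (l.get k) * tr Ω (pre * wprod ev (l.take k.val)) *
        tr Ω (wprod ev (l.drop (k.val + 1)) * Y) := by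
  induction l generalizing pre with
  | nil => simp [spl]
  | cons a l ih => simp [spl, ih, Fin.sum_univ_succ, wprod_cons, wprod_nil, mul_assoc]

variable [DecidableEq ι]

lemma split_spl {Ω : H} {X : ι → H →L[ℂ] H} (hX : IsSC Ω X) (i : ι) (l : List ι) :
    tr Ω (X i * wprod X l) = spl Ω X (fun j => if j = i then 1 else 0) 1 l 1 := by
  rw [hX.split, spl_sum_fin]
  exact Finset.sum_congr rfl fun k _ => by split_ifs <;> simp

/-- The closed algebra of the other members. -/
def others (X : ι → H →L[ℂ] H) (k : ι) : Subalgebra ℂ (H →L[ℂ] H) :=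
  (Algebra.adjoin ℂ (X '' {j | j ≠ k})).topologicalClosure

/-- The closed algebra of one member. -/
def single (X : ι → H →L[ℂ] H) (k : ι) : Subalgebra ℂ (H →L[ℂ] H) :=
  (Algebra.adjoin ℂ ({X k} : Set (H →L[ℂ] H))).topologicalClosure

lemma mem_others {X : ι → H →L[ℂ] H} {j k : ι} (h : j ≠ k) : X j ∈ others X k :=
  Subalgebra.le_topologicalClosure _ (Algebra.subset_adjoin ⟨j, h, rfl⟩)

lemma mem_single (X : ι → H →L[ℂ] H) (k : ι) : X k ∈ single X k :=
  Subalgebra.le_topologicalClosure _ (Algebra.subset_adjoin rfl)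

lemma single_le_others {X : ι → H →L[ℂ] H} {j k : ι} (h : j ≠ k) :
    single X j ≤ others X k := by
  refine Subalgebra.topologicalClosure_minimal ?_ (Subalgebra.isClosed_topologicalClosure _)
  exact Algebra.adjoin_le (Set.singleton_subset_iff.2 (mem_others h))

lemma eq_on_others {X : ι → H →L[ℂ] H} {k : ι} (f g : (H →L[ℂ] H) →L[ℂ] ℂ)
    (h : ∀ l : List ι, k ∉ l → f (wprod X l) = g (wprod X l))
    {y : H →L[ℂ] H} (hy : y ∈ others X k) : f y = g y := by
  refine (IsClosed.closure_subset_iff (isClosed_eq f.continuous g.continuous)).2 ?_ hy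
  intro z hz
  replace hz : z ∈ Subalgebra.toSubmodule (Algebra.adjoin ℂ (X '' {j | j ≠ k})) := hz
  rw [Algebra.adjoin_eq_span] at hz
  refine Submodule.span_induction (p := fun z _ => f z = g z) ?_ (by simp)
    (fun a b _ _ ha hb => by simp [ha, hb]) (fun r a _ ha => by simp [ha]) hz
  intro w hw
  obtain ⟨ls, h1, rfl⟩ := Submonoid.exists_list_of_mem_closure hw
  have : ∃ l : List ι, k ∉ l ∧ ls = l.map X := by
    clear hw
    induction ls with
    | nil => exact ⟨[], by simp, rfl⟩
    | cons a ls ih =>
      obtain ⟨j, hj, rfl⟩ := h1 a List.mem_cons_self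
      obtain ⟨l, hl, rfl⟩ := ih fun b hb => h1 b (List.mem_cons_of_mem _ hb)
      exact ⟨j :: l, by simp [Ne.symm hj, hl], rfl⟩
  obtain ⟨l, hl, rfl⟩ := this
  exact h l hl

/-- The recursion for letters that are linear in one member. -/
lemma split_one {Ω : H} {X : ι → H →L[ℂ] H} (hX : IsSC Ω X) (k : ι) (ev : κ → H →L[ℂ] H)
    (β : κ → ℂ) (hev : ∀ a, ev a - β a • X k ∈ others X k) :
    ∀ (v : List κ) (w : List ι), tr Ω (X k * (wprod X w * wprod ev v)) =
      spl Ω X (fun j => if j = k then 1 else 0) 1 w (wprod ev v) +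
        spl Ω ev β (wprod X w) v 1 := by
  intro v
  induction v with
  | nil => intro w; simp [spl, wprod_nil, split_spl hX]
  | cons a v ih =>
    intro w
    set r := ev a - β a • X k with hr
    let δ : ι → ℂ := fun j => if j = k then 1 else 0
    have hmain : tr Ω (X k * (wprod X w * r * wprod ev v)) =
        spl Ω X δ 1 w (r * wprod ev v) + spl Ω ev β (wprod X w * r) v 1 := by
      refine eq_on_others
        ((trC Ω).comp (((ContinuousLinearMap.mul ℂ _ (X k)).comp
          (((ContinuousLinearMap.mul ℂ _).flip (wprod ev v)).comp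
            (ContinuousLinearMap.mul ℂ _ (wprod X w))))))
        ((splR Ω X δ 1 w).comp ((ContinuousLinearMap.mul ℂ _).flip (wprod ev v)) +
          (splL Ω ev β v 1).comp (ContinuousLinearMap.mul ℂ _ (wprod X w))) ?_ (hev a)
      intro l hl
      show tr Ω (X k * (wprod X w * wprod X l * wprod ev v)) =
        spl Ω X δ 1 w (wprod X l * wprod ev v) + spl Ω ev β (wprod X w * wprod X l) v 1
      rw [← wprod_append, ih (w ++ l), spl_append,
        spl_eq_zero Ω X δ l (fun j hj => if_neg fun (e : j = k) => hl (e ▸ hj))]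
      simp
      rfl
    have hk : tr Ω (X k * (wprod X w * X k * wprod ev v)) =
        spl Ω X δ 1 w (X k * wprod ev v) + tr Ω (wprod X w) * tr Ω (wprod ev v) +
          spl Ω ev β (wprod X w * X k) v 1 := by
      have := ih (w ++ [k])
      simp only [wprod_append, spl_append, spl] at this
      simp only [wprod_cons, wprod_nil, mul_one, one_mul, if_true, add_zero] at this
      exact this
    have he : ev a = r + β a • X k := by simp [hr]
    have e1 : spl Ω X δ 1 w ((r + β a • X k) * wprod ev v) =
        spl Ω X δ 1 w (r * wprod ev v) + β a * spl Ω X δ 1 w (X k * wprod ev v) := by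
      rw [add_mul, smul_mul_assoc, spl_right_add, spl_right_smul]
    simp only [spl, wprod_cons, he, mul_one]
    rw [e1]
    simp only [mul_add, add_mul, mul_smul_comm, smul_mul_assoc, tr_add, tr_smul, spl_left_add,
      spl_left_smul, ← mul_assoc (wprod X w), hmain, hk]
    ring

lemma split_one' {Ω : H} {X : ι → H →L[ℂ] H} (hX : IsSC Ω X) (k : ι) (ev : κ → H →L[ℂ] H)
    (β : κ → ℂ) (hev : ∀ a, ev a - β a • X k ∈ others X k) (v : List κ) :
    tr Ω (X k * wprod ev v) = spl Ω ev β 1 v 1 := by
  simpa [spl, wprod_nil] using split_one hX k ev β hev v []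

/-- Words of odd length have trace zero. -/
lemma tr_odd {Ω : H} {X : ι → H →L[ℂ] H} (hX : IsSC Ω X) (l : List ι) (h : Odd l.length) :
    tr Ω (wprod X l) = 0 := by
  induction hn : l.length using Nat.strong_induction_on generalizing l with
  | h n ih =>
    subst hn
    cases l with
    | nil => simp at h
    | cons i l =>
      rw [wprod_cons, hX.split]
      refine Finset.sum_eq_zero fun k _ => ?_
      split_ifs
      · have hk := k.isLt
        rcases Nat.even_or_odd k.val with he | ho
        · have : Odd (l.drop (k.val + 1)).length := by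
            rw [List.length_drop]
            simp only [List.length_cons] at h
            rw [Nat.odd_iff] at h ⊢
            rw [Nat.even_iff] at he
            omega
          rw [ih _ (by simp) _ this rfl, mul_zero]
        · rw [ih _ (by simp) _ (by simpa [List.length_take, min_eq_left hk.le] using ho) rfl,
            zero_mul]
      · rfl

/-! ## Approximation by polynomials -/

lemma exists_poly_seq (f : ℝ → ℝ) (hf : Continuous f) :
    ∃ p : ℕ → ℝ[X], ∀ n, ∀ t ∈ Set.Icc (-2 : ℝ) 2, |(p n).eval t - f t| < 1 / ((n : ℝ) + 1) := by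
  choose p hp using fun n : ℕ => exists_polynomial_near_of_continuousOn (-2) 2 f
    hf.continuousOn (1 / ((n : ℝ) + 1)) Nat.one_div_pos_of_nat
  exact ⟨p, hp⟩

lemma tendsto_aeval_cfc {a : H →L[ℂ] H} (ha : IsSelfAdjoint a) (hn : ‖a‖ ≤ 2) {f : ℝ → ℝ}
    (hf : Continuous f) {p : ℕ → ℝ[X]}
    (hp : ∀ n, ∀ t ∈ Set.Icc (-2 : ℝ) 2, |(p n).eval t - f t| < 1 / ((n : ℝ) + 1)) :
    Tendsto (fun n => aeval a (p n)) atTop (𝓝 (cfc f a)) := by
  rw [tendsto_iff_norm_sub_tendsto_zero]
  refine squeeze_zero (fun n => norm_nonneg _) (fun n => ?_)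
    (tendsto_one_div_add_atTop_nhds_zero_nat (𝕜 := ℝ))
  have hc : Continuous fun t => (p n).eval t := (p n).continuous
  rw [← cfc_polynomial (p n) a ha, ← cfc_sub (fun t => (p n).eval t) f a hc.continuousOn
    hf.continuousOn]
  refine norm_cfc_le (by positivity) fun t ht => ?_
  have hb : ‖t‖ ≤ 2 := by
    by_cases hnt : Nontrivial (H →L[ℂ] H)
    · exact (spectrum.norm_le_norm_of_mem ht).trans hn
    · rw [not_nontrivial_iff_subsingleton] at hnt
      simp at ht
  rw [Real.norm_eq_abs] at hb ⊢
  exact (hp n t (abs_le.1 hb)).le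

lemma aeval_mem {S : Subalgebra ℂ (H →L[ℂ] H)} {a : H →L[ℂ] H} (ha : a ∈ S) (p : ℝ[X]) :
    aeval a p ∈ S := by
  induction p using Polynomial.induction_on' with
  | add p q hp hq => rw [map_add]; exact add_mem hp hq
  | monomial n r =>
    rw [aeval_monomial, IsScalarTower.algebraMap_apply ℝ ℂ (H →L[ℂ] H)]
    exact mul_mem (S.algebraMap_mem _) (pow_mem ha n)

lemma cfc_mem_single {Ω : H} {X : ι → H →L[ℂ] H} (hX : IsSC Ω X) (k : ι) {f : ℝ → ℝ}
    (hf : Continuous f) : cfc f (X k) ∈ single X k := by
  obtain ⟨p, hp⟩ := exists_poly_seq f hf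
  exact (Subalgebra.isClosed_topologicalClosure _).mem_of_tendsto
    (tendsto_aeval_cfc (hX.sa k) (hX.bound k) hf hp)
    (Eventually.of_forall fun n => aeval_mem (mem_single X k) _)

/-! ## Freeness and equal marginals -/

/-- The centred powers. -/
def cpow (Ω : H) (X : ι → H →L[ℂ] H) (s : ι × ℕ) : H →L[ℂ] H :=
  X s.1 ^ s.2 - tr Ω (X s.1 ^ s.2) • 1

lemma wprod_replicate (X : ι → H →L[ℂ] H) (i : ι) (n : ℕ) :
    wprod X (List.replicate n i) = X i ^ n := by
  simp [wprod]

/-- Pairing one member with a list of centred powers. -/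
def sspl (Ω : H) (X : ι → H →L[ℂ] H) (i : ι) :
    (H →L[ℂ] H) → List (ι × ℕ) → ℂ
  | _, [] => 0
  | pre, s :: Q => spl Ω X (fun j => if j = i then 1 else 0) pre (List.replicate s.2 s.1)
      (wprod (cpow Ω X) Q) + sspl Ω X i (pre * cpow Ω X s) Q

lemma sspl_add (Ω : H) (X : ι → H →L[ℂ] H) (i : ι) (Q : List (ι × ℕ)) (p q : H →L[ℂ] H) :
    sspl Ω X i (p + q) Q = sspl Ω X i p Q + sspl Ω X i q Q := by
  induction Q generalizing p q with
  | nil => simp [sspl]
  | cons s Q ih => simp [sspl, ih, spl_left_add, add_mul]; ring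

lemma sspl_smul (Ω : H) (X : ι → H →L[ℂ] H) (i : ι) (Q : List (ι × ℕ)) (r : ℂ)
    (p : H →L[ℂ] H) : sspl Ω X i (r • p) Q = r * sspl Ω X i p Q := by
  induction Q generalizing p with
  | nil => simp [sspl]
  | cons s Q ih => simp [sspl, ih, spl_left_smul]; ring

lemma split_sspl {Ω : H} {X : ι → H →L[ℂ] H} (hX : IsSC Ω X) (i : ι) :
    ∀ (Q : List (ι × ℕ)) (w : List ι), tr Ω (X i * (wprod X w * wprod (cpow Ω X) Q)) =
      spl Ω X (fun j => if j = i then 1 else 0) 1 w (wprod (cpow Ω X) Q) +
        sspl Ω X i (wprod X w) Q := by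
  intro Q
  induction Q with
  | nil => intro w; simp [sspl, wprod_nil, split_spl hX]
  | cons s Q ih =>
    intro w
    let δ : ι → ℂ := fun j => if j = i then 1 else 0
    have h1 : tr Ω (X i * (wprod X w * (X s.1 ^ s.2) * wprod (cpow Ω X) Q)) =
        spl Ω X δ 1 w (X s.1 ^ s.2 * wprod (cpow Ω X) Q) +
          spl Ω X δ (wprod X w) (List.replicate s.2 s.1) (wprod (cpow Ω X) Q) +
          sspl Ω X i (wprod X w * X s.1 ^ s.2) Q := by
      have := ih (w ++ List.replicate s.2 s.1)
      simp only [wprod_append, spl_append, wprod_replicate, one_mul] at this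
      exact this
    have h2 : tr Ω (X i * (wprod X w * wprod (cpow Ω X) Q)) =
        spl Ω X δ 1 w (wprod (cpow Ω X) Q) + sspl Ω X i (wprod X w) Q := ih w
    set m := tr Ω (X s.1 ^ s.2)
    have hc : cpow Ω X s = X s.1 ^ s.2 + (-m) • 1 := by simp [cpow, m, sub_eq_add_neg]
    simp only [sspl, wprod_cons, hc]
    have e1 : spl Ω X δ 1 w ((X s.1 ^ s.2 + (-m) • 1) * wprod (cpow Ω X) Q) =
        spl Ω X δ 1 w (X s.1 ^ s.2 * wprod (cpow Ω X) Q) +
          (-m) * spl Ω X δ 1 w (wprod (cpow Ω X) Q) := by
      rw [add_mul, smul_mul_assoc, one_mul, spl_right_add, spl_right_smul]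
    rw [e1]
    simp only [mul_add, add_mul, mul_smul_comm, smul_mul_assoc, one_mul, mul_one, tr_add,
      tr_smul, sspl_add, sspl_smul, ← mul_assoc (wprod X w), h1, h2]
    ring

lemma mem_vn_wprod (X : ι → H →L[ℂ] H) (l : List ι) : wprod X l ∈ vn (Set.range X) :=
  vn_wprod l fun i _ => subset_vn _ ⟨i, rfl⟩

lemma cpow_mem_vn (Ω : H) (X : ι → H →L[ℂ] H) (s : ι × ℕ) :
    cpow Ω X s ∈ vn (Set.range X) :=
  vn_sub (vn_pow (subset_vn (Set.range X) ⟨s.1, rfl⟩) _) (vn_smul _ vn_one)

/-- A power in front of an alternating list of centred powers has trace zero. -/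
lemma free_pow {Ω : H} {X : ι → H →L[ℂ] H} (hX : IsSys Ω X) :
    ∀ (Q : List (ι × ℕ)) (i : ι) (r : ℕ), Q ≠ [] → (i :: Q.map Prod.fst).IsChain (· ≠ ·) →
      tr Ω (X i ^ r * wprod (cpow Ω X) Q) = 0 := by
  intro Q
  induction hn : Q.length using Nat.strong_induction_on generalizing Q with
  | h n ih =>
    subst hn
    intro i r hQ hch
    induction r using Nat.strong_induction_on with
    | h r ihr =>
      cases r with
      | zero =>
        obtain ⟨s, Q', rfl⟩ := List.exists_cons_of_ne_nil hQ
        rw [pow_zero, one_mul, wprod_cons]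
        simp only [List.map_cons, List.isChain_cons_cons] at hch
        by_cases hQ' : Q' = []
        · subst hQ'
          simp [cpow, wprod_nil, tr_sub, tr_smul, tr_one hX.unit]
        · have h1 := ih Q'.length (by simp) Q' rfl s.1 s.2 hQ' hch.2
          have h2 := ih Q'.length (by simp) Q' rfl s.1 0 hQ' hch.2
          rw [pow_zero, one_mul] at h2
          simp [cpow, sub_mul, tr_sub, tr_smul, h1, h2]
      | succ r =>
        rw [pow_succ', mul_assoc, ← wprod_replicate, split_sspl hX.toIsSC]
        have hfirst : ∀ (pre : H →L[ℂ] H) (l : ℕ), l ≤ r →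
            spl Ω X (fun j => if j = i then 1 else 0) pre (List.replicate l i)
              (wprod (cpow Ω X) Q) = 0 := by
          intro pre l hl
          induction l generalizing pre with
          | zero => rfl
          | succ l ihl =>
            rw [List.replicate_succ]
            simp only [spl, wprod_replicate]
            rw [ihl _ (by omega), ihr l (by omega)]
            simp
        rw [hfirst 1 r le_rfl, zero_add, wprod_replicate]
        have hsec : ∀ (Q₁ Q₂ : List (ι × ℕ)), Q = Q₁ ++ Q₂ →
            sspl Ω X i (X i ^ r * wprod (cpow Ω X) Q₁) Q₂ = 0 := by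
          intro Q₁ Q₂
          induction Q₂ generalizing Q₁ with
          | nil => intro _; rfl
          | cons s Q₂ ih2 =>
            intro hq
            rw [sspl, mul_assoc]
            have hz : sspl Ω X i (X i ^ r * (wprod (cpow Ω X) Q₁ * cpow Ω X s)) Q₂ = 0 := by
              have := ih2 (Q₁ ++ [s]) (by simp [hq])
              simpa [wprod_append, wprod_cons, wprod_nil] using this
            rw [hz, add_zero]
            by_cases hs : s.1 = i
            · rw [hs]
              have hQ1 : Q₁ ≠ [] := by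
                rintro rfl
                subst hq
                simp only [List.nil_append, List.map_cons, List.isChain_cons_cons] at hch
                exact hch.1 hs.symm
              have hch1 : (i :: Q₁.map Prod.fst).IsChain (· ≠ ·) := by
                rw [hq, List.map_append, ← List.cons_append] at hch
                exact hch.left_of_append
              have key : ∀ (b l : ℕ),
                  spl Ω X (fun j => if j = i then 1 else 0)
                    (X i ^ r * wprod (cpow Ω X) Q₁ * X i ^ b) (List.replicate l i)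
                    (wprod (cpow Ω X) Q₂) = 0 := by
                intro b l
                induction l generalizing b with
                | zero => rfl
                | succ l ihl =>
                  rw [List.replicate_succ]
                  simp only [spl]
                  have e := ihl (b + 1)
                  rw [pow_succ, ← mul_assoc] at e
                  rw [e, add_zero]
                  have hzero : tr Ω (X i ^ r * wprod (cpow Ω X) Q₁ * X i ^ b) = 0 := by
                    rw [hX.tracial _ (vn_mul (vn_pow (subset_vn (Set.range X) ⟨i, rfl⟩) _)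
                      (vn_wprod _ fun t _ => cpow_mem_vn Ω X t)) _
                      (vn_pow (subset_vn (Set.range X) ⟨i, rfl⟩) _), ← mul_assoc, ← pow_add]
                    exact ih Q₁.length (by simp [hq]) Q₁ rfl i _ hQ1 hch1
                  simp [hzero]
              simpa using key 0 s.2
            · exact spl_eq_zero _ _ _ _ (fun a ha => by
                rw [List.eq_of_mem_replicate ha]; exact if_neg hs) _ _
        have := hsec [] Q rfl
        simpa [wprod_nil] using this

lemma free_cpow {Ω : H} {X : ι → H →L[ℂ] H} (hX : IsSys Ω X) (Q : List (ι × ℕ)) (hQ : Q ≠ [])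
    (hch : (Q.map Prod.fst).IsChain (· ≠ ·)) : tr Ω (wprod (cpow Ω X) Q) = 0 := by
  obtain ⟨s, Q', rfl⟩ := List.exists_cons_of_ne_nil hQ
  rw [wprod_cons]
  by_cases hQ' : Q' = []
  · subst hQ'
    simp [cpow, wprod_nil, tr_sub, tr_smul, tr_one hX.unit]
  · simp only [List.map_cons] at hch
    have h1 := free_pow hX Q' s.1 s.2 hQ' hch
    have h2 := free_pow hX Q' s.1 0 hQ' hch
    rw [pow_zero, one_mul] at h2
    simp [cpow, sub_mul, tr_sub, tr_smul, h1, h2]

/-- Centred elements of different members: alternating products have trace zero. -/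
lemma free_single {Ω : H} {X : ι → H →L[ℂ] H} (hX : IsSys Ω X) :
    ∀ (L : List (ι × (H →L[ℂ] H))) (P : List (ι × ℕ)),
      (∀ p ∈ L, p.2 ∈ single X p.1 ∧ tr Ω p.2 = 0) → P ++ L.map (fun p => (p.1, 0)) ≠ [] →
      (P.map Prod.fst ++ L.map Prod.fst).IsChain (· ≠ ·) →
      tr Ω (wprod (cpow Ω X) P * (L.map Prod.snd).prod) = 0 := by
  intro L
  induction L with
  | nil =>
    intro P _ hne hch
    simpa using free_cpow hX P (by simpa using hne) (by simpa using hch)
  | cons p L ih =>
    intro P hL _ hch
    let F : (H →L[ℂ] H) →L[ℂ] ℂ := (trC Ω).comp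
      (((ContinuousLinearMap.mul ℂ _ (wprod (cpow Ω X) P)).comp
        ((ContinuousLinearMap.mul ℂ _).flip (L.map Prod.snd).prod)).comp
          (ContinuousLinearMap.id ℂ _ - (trC Ω).smulRight (1 : H →L[ℂ] H)))
    have hF : ∀ y, F y = tr Ω (wprod (cpow Ω X) P *
        ((y - tr Ω y • 1) * (L.map Prod.snd).prod)) := fun y => rfl
    have h0 : F p.2 = 0 := by
      refine (IsClosed.closure_subset_iff (isClosed_eq F.continuous continuous_const)).2 ?_
        (hL p List.mem_cons_self).1
      intro z hz
      rw [SetLike.mem_coe, Algebra.adjoin_singleton_eq_range_aeval] at hz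
      obtain ⟨q, rfl⟩ := hz
      simp only [Set.mem_ofPred_eq, AlgHom.toRingHom_eq_coe, RingHom.coe_coe]
      induction q using Polynomial.induction_on' with
      | add a b ha hb => rw [map_add, map_add, ha, hb, add_zero]
      | monomial n c =>
        rw [aeval_monomial, ← Algebra.smul_def, map_smul, hF]
        have := ih (P ++ [(p.1, n)]) (fun q hq => hL q (List.mem_cons_of_mem _ hq)) (by simp)
          (by simpa using hch)
        rw [wprod_append, wprod_cons, wprod_nil, mul_one, mul_assoc] at this
        simp [cpow] at this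
        simp [this]
    rw [hF, (hL p List.mem_cons_self).2, zero_smul, sub_zero] at h0
    simpa using h0

/-- Words in functions of single members are determined by the marginal moments. -/
lemma wprod_eq_of_marginals {Ω : H} {X : ι → H →L[ℂ] H} (hX : IsSys Ω X) {γ : Type}
    [DecidableEq γ] (e : γ → ι) (he : Function.Injective e) (u v : γ → H →L[ℂ] H)
    (hu : ∀ i, u i ∈ single X (e i)) (hv : ∀ i, v i ∈ single X (e i))
    (hm : ∀ i (r : ℕ), tr Ω (u i ^ r) = tr Ω (v i ^ r)) (l : List γ) :
    tr Ω (wprod u l) = tr Ω (wprod v l) := by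
  have key : ∀ (N : ℕ) (Q : List (γ × ℕ)) (l : List γ), 2 * l.length + Q.length ≤ N →
      (Q.map Prod.fst).IsChain (· ≠ ·) →
      tr Ω (wprod (cpow Ω u) Q * wprod u l) = tr Ω (wprod (cpow Ω v) Q * wprod v l) := by
    intro N
    induction N using Nat.strong_induction_on with
    | h N ih =>
      intro Q l hN hch
      cases l with
      | nil =>
        rw [wprod_nil, wprod_nil, mul_one, mul_one]
        by_cases hQ : Q = []
        · subst hQ; rfl
        · have hz : ∀ w : γ → H →L[ℂ] H, (∀ i, w i ∈ single X (e i)) →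
              tr Ω (wprod (cpow Ω w) Q) = 0 := by
            intro w hw
            have h := free_single hX (Q.map fun s => (e s.1, cpow Ω w s)) [] ?_ ?_ ?_
            · simpa [wprod, Function.comp_def] using h
            · intro p hp
              obtain ⟨s, _, rfl⟩ := List.mem_map.1 hp
              exact ⟨sub_mem (pow_mem (hw _) _) (Subalgebra.smul_mem _ (one_mem _) _),
                by simp [cpow, tr_sub, tr_smul, tr_one hX.unit]⟩
            · simpa using hQ
            · simp only [List.map_nil, List.nil_append, List.map_map, Function.comp_def]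
              rw [show Q.map (fun s => e s.1) = (Q.map Prod.fst).map e by simp, List.isChain_map]
              exact hch.imp fun a b h h' => h (he h')
          rw [hz u hu, hz v hv]
      | cons j l =>
        simp only [List.length_cons] at hN
        by_cases hlast : ∃ Q' r, Q = Q' ++ [(j, r)]
        · obtain ⟨Q', r, rfl⟩ := hlast
          simp only [List.length_append, List.length_cons, List.length_nil] at hN
          have ex : ∀ w : γ → H →L[ℂ] H,
              wprod (cpow Ω w) (Q' ++ [(j, r)]) * wprod w (j :: l) =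
              wprod (cpow Ω w) (Q' ++ [(j, r + 1)]) * wprod w l
                + tr Ω (w j ^ (r + 1)) • (wprod (cpow Ω w) Q' * wprod w l)
                - tr Ω (w j ^ r) • (wprod (cpow Ω w) Q' * wprod w (j :: l)) := by
            intro w
            simp only [wprod_append, wprod_cons, wprod_nil, mul_one, cpow, mul_sub, sub_mul,
              mul_smul_comm, smul_mul_assoc, mul_assoc, pow_succ]
            abel
          have hch' : (Q'.map Prod.fst).IsChain (· ≠ ·) := by
            rw [List.map_append] at hch; exact hch.left_of_append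
          have h1 := ih (2 * l.length + Q'.length + 1) (by omega) (Q' ++ [(j, r + 1)]) l
            (by simp; omega) (by simpa using hch)
          have h2 := ih (2 * l.length + Q'.length) (by omega) Q' l le_rfl hch'
          have h3 := ih (2 * (l.length + 1) + Q'.length) (by omega) Q' (j :: l) (by simp) hch'
          simp only [ex, tr_sub, tr_add, tr_smul, h1, h2, h3, hm]
        · have ex : ∀ w : γ → H →L[ℂ] H, wprod (cpow Ω w) Q * wprod w (j :: l) =
              wprod (cpow Ω w) (Q ++ [(j, 1)]) * wprod w l
                + tr Ω (w j ^ 1) • (wprod (cpow Ω w) Q * wprod w l) := by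
            intro w
            simp only [wprod_append, wprod_cons, wprod_nil, mul_one, cpow, mul_sub, sub_mul,
              mul_smul_comm, smul_mul_assoc, mul_assoc, pow_one]
            abel
          have hch' : ((Q ++ [(j, 1)]).map Prod.fst).IsChain (· ≠ ·) := by
            rw [List.map_append]
            refine hch.append (List.isChain_singleton _) ?_
            intro a ha b hb
            simp at hb
            subst hb
            intro haj
            subst haj
            rcases List.eq_nil_or_concat Q with rfl | ⟨Q', s, rfl⟩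
            · simp at ha
            · simp at ha
              exact hlast ⟨Q', s.2, by simp [← ha]⟩
          have h1 := ih (2 * l.length + Q.length + 1) (by omega) (Q ++ [(j, 1)]) l
            (by simp; omega) hch'
          have h2 := ih (2 * l.length + Q.length) (by omega) Q l le_rfl hch
          simp only [ex, tr_add, tr_smul, h1, h2, hm]
  simpa [wprod_nil] using key _ [] l le_rfl List.isChain_nil

end Vale.Agent.P086.Gauge
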