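import Vale.Agent.P086.Model.MainGen

/-!
# The model triple

Its moments are those of a free semicircular triple, the trace vector is cyclic and tracial for it,
and the first two members generate the matrices over the first variables.
-/

noncomputable section

namespace Vale.Agent.P086

open scoped InnerProductSpace BigOperators

universe u

variable {H : Type u} [NormedAddCommGroup H] [InnerProductSpace ℂ H] [CompleteSpace H] {K : ℕ}

set_option linter.unusedSectionVars false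

lemma matRep_matVac_apply (A : Fin K → Fin K → H →L[ℂ] H) (Ω : H) (p : Fin K × Fin K) :
    matRep A (matVac Ω) p = ((Real.sqrt K : ℝ) : ℂ)⁻¹ • A p.1 p.2 Ω := by
  rw [matRep_apply_main, Finset.sum_eq_single p.2]
  · simp [matVac]
  · intro j _ hj
    simp [matVac, hj]
  · simp

lemma tr_sum {ι : Type*} (Ω : H) (s : Finset ι) (f : ι → H →L[ℂ] H) :
    tr Ω (∑ i ∈ s, f i) = ∑ i ∈ s, tr Ω (f i) := by
  simp [tr]

lemma star_herm {f : Fin K × Fin K → H →L[ℂ] H} (hf : ∀ p, IsSelfAdjoint (f p)) (i j : Fin K) :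
    star (herm f j i) = herm f i j := by
  rcases lt_trichotomy i j with h | rfl | h
  · simp [herm, h.ne, h.ne', h, h.not_gt, star_sub, (hf _).star_eq, Complex.conj_ofReal]
  · simp [herm, (hf _).star_eq]
  · simp [herm, h.ne, h.ne', h, h.not_gt, star_add, (hf _).star_eq, Complex.conj_ofReal,
      sub_eq_add_neg]

lemma isSelfAdjoint_matRep (hMat : MatGoal.{u}) (hK : 0 < K) {A : Fin K → Fin K → H →L[ℂ] H}
    (hA : ∀ i j, star (A j i) = A i j) : IsSelfAdjoint (matRep A) := by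
  rw [IsSelfAdjoint, ((hMat K (0 : H) hK).2.1 A A).2.1]
  exact congrArg matRep (funext fun i => funext fun j => hA i j)

lemma isSelfAdjoint_triple (hMat : MatGoal.{u}) (hK : 0 < K) {a : MIdx K → H →L[ℂ] H}
    (ha : ∀ k, IsSelfAdjoint (a k)) (i : Fin 3) : IsSelfAdjoint (triple a i) := by
  have hs : IsSelfAdjoint ((Real.sqrt K : ℂ)⁻¹) := by
    simp [IsSelfAdjoint, Complex.conj_ofReal]
  fin_cases i
  · refine isSelfAdjoint_matRep hMat hK fun k l => ?_
    by_cases h : k = l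
    · subst h; simp [xBlock, (cfc_predicate (piece K k) (a (.inl (.inl k)))).star_eq]
    · simp [xBlock, h, Ne.symm h]
  · refine hs.smul (isSelfAdjoint_matRep hMat hK fun k l => ?_)
    unfold gaugedBlock
    by_cases h₁ : (k : ℕ) = 0 ∧ (l : ℕ) ≠ 0
    · have h₂ : ¬ ((l : ℕ) = 0 ∧ (k : ℕ) ≠ 0) := fun hh => h₁.2 hh.1
      rw [dif_neg h₂, dif_pos h₁, dif_pos h₁]
      exact (cfc_predicate _ _ : IsSelfAdjoint _).star_eq
    by_cases h₂ : (l : ℕ) = 0 ∧ (k : ℕ) ≠ 0
    · rw [dif_pos h₂, dif_neg h₁, dif_pos h₂]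
      exact (cfc_predicate _ _ : IsSelfAdjoint _).star_eq
    rw [dif_neg h₁, dif_neg h₂, dif_neg h₂, dif_neg h₁]
    refine star_herm (fun p => ?_) k l
    by_cases hp : ¬ ((p.2 : ℕ) = 0 ∧ (p.1 : ℕ) ≠ 0)
    · rw [dif_pos hp]; exact ha _
    · rw [dif_neg hp]; exact IsSelfAdjoint.zero _
  · exact hs.smul (isSelfAdjoint_matRep hMat hK fun k l => star_herm (fun p => ha _) k l)

/-- The operators of matrices with entries in a generated algebra. -/
def matAlg (hMat : MatGoal.{u}) (hK : 0 < K) (t : Set (H →L[ℂ] H)) :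
    StarSubalgebra ℂ (HK H K →L[ℂ] HK H K) where
  carrier := {T | ∃ A : Fin K → Fin K → H →L[ℂ] H, (∀ i j, A i j ∈ vn t) ∧ matRep A = T}
  mul_mem' := by
    rintro _ _ ⟨A, hA, rfl⟩ ⟨B, hB, rfl⟩
    exact ⟨_, fun i j => vn_sum _ fun k _ => vn_mul (hA i k) (hB k j),
      ((hMat K (0 : H) hK).2.1 A B).1.symm⟩
  add_mem' := by
    rintro _ _ ⟨A, hA, rfl⟩ ⟨B, hB, rfl⟩
    exact ⟨_, fun i j => vn_add (hA i j) (hB i j), ((hMat K (0 : H) hK).2.1 A B).2.2.1.symm⟩
  one_mem' := ⟨_, fun i j => by split_ifs <;> [exact vn_one; exact vn_zero],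
    (hMat K (0 : H) hK).2.2.2⟩
  zero_mem' := ⟨fun _ _ => 0, fun _ _ => vn_zero, by
    refine ContinuousLinearMap.ext fun ξ => PiLp.ext fun p => ?_
    simp [matRep_apply_main]⟩
  algebraMap_mem' z := ⟨fun i j => z • (if i = j then 1 else 0),
    fun i j => vn_smul z (by split_ifs <;> [exact vn_one; exact vn_zero]), by
      rw [← (hMat K (0 : H) hK).2.2.1, (hMat K (0 : H) hK).2.2.2, Algebra.algebraMap_eq_smul_one]⟩
  star_mem' := by
    rintro _ ⟨A, hA, rfl⟩
    exact ⟨_, fun i j => vn_star (hA j i), ((hMat K (0 : H) hK).2.1 A A).2.1.symm⟩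

lemma tr_mul_comm_matRep (hMat : MatGoal.{u}) (hK : 0 < K) {Ω : H} {a : MIdx K → H →L[ℂ] H}
    (hsys : IsSys Ω a) {S T : HK H K →L[ℂ] HK H K}
    (hS : S ∈ matAlg hMat hK (Set.range a)) (hT : T ∈ matAlg hMat hK (Set.range a)) :
    tr (matVac Ω) (S * T) = tr (matVac Ω) (T * S) := by
  obtain ⟨A, hA, rfl⟩ := hS
  obtain ⟨B, hB, rfl⟩ := hT
  rw [((hMat K Ω hK).2.1 A B).1, ((hMat K Ω hK).2.1 B A).1,
    ((hMat K Ω hK).2.1 (fun i j => ∑ k, A i k * B k j) A).2.2.2.1,
    ((hMat K Ω hK).2.1 (fun i j => ∑ k, B i k * A k j) A).2.2.2.1]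
  congr 1
  simp only [tr_sum]
  rw [Finset.sum_comm]
  exact Finset.sum_congr rfl fun i _ => Finset.sum_congr rfl fun k _ =>
    hsys.tracial _ (hA k i) _ (hB i k)

lemma dense_bigSet {Ω : H} {a : MIdx K → H →L[ℂ] H} (hK : 0 < K) (hsys : IsSys Ω a) :
    Dense ((fun T : HK H K →L[ℂ] HK H K => T (matVac Ω)) '' vn (bigSet a)) := by
  have hd := dense_pi (Set.univ : Set (Fin K × Fin K)) fun _ _ => hsys.cyclic
  have h := (PiLp.continuousLinearEquiv 2 ℂ fun _ : Fin K × Fin K => H).symm.surjective.denseRange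
    |>.dense_image
      (PiLp.continuousLinearEquiv 2 ℂ fun _ : Fin K × Fin K => H).symm.continuous hd
  refine h.mono ?_
  rintro _ ⟨ξ, hξ, rfl⟩
  choose c hc hcξ using fun p => hξ p (Set.mem_univ p)
  refine ⟨matRep fun i j => ((Real.sqrt K : ℝ) : ℂ) • c (i, j),
    matRep_mem_big fun i j => vn_smul _ (hc _), PiLp.ext fun p => ?_⟩
  simp only [matRep_matVac_apply, smul_apply]
  rw [inv_smul_smul₀ (by simp [hK.ne'])]
  exact hcξ p

/-- The model: a free semicircular triple whose first two members generate all matrices over the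
algebra of the first variables. -/
theorem modelGoal (hOps : OpsGoal.{u}) (hTrace : TraceGoal.{u}) (hSemi : SemiGoal)
    (hCalc : CalcGoal.{u}) (hMat : MatGoal.{u}) (hRaw : RawGoal.{0, 0})
    (hGauge : GaugeGoal.{u, 0}) (hExist : ExistGoal) : ModelGoal.{u} := by
  intro H _ _ _ K Ω a hK2 hsys
  have hK : 0 < K := by omega
  obtain ⟨H₁, _, _, _, Ω₁, b, hb⟩ := hExist (RIdx K)
  obtain ⟨H₂, _, _, _, Ω₂, X, hX⟩ := hExist (Fin 3)
  have hmom : ∀ l : List (Fin 3), tr (matVac Ω) (wprod (triple a) l) = tr Ω₂ (wprod X l) :=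
    fun l => (hGauge K Ω Ω₁ a b hK2 hsys hb l).trans (hRaw K Ω₁ b hK2 hb Ω₂ X hX l)
  -- the large algebra
  have hdense := dense_bigSet hK hsys
  have hbig : StarAlgebra.adjoin ℂ (bigSet a) ≤ matAlg hMat hK (Set.range a) := by
    refine StarAlgebra.adjoin_le ?_
    rintro _ ⟨i, j, c, hc, rfl⟩
    refine ⟨entry i j c, fun k l => ?_, rfl⟩
    unfold entry
    split_ifs
    · exact hc
    · exact vn_zero
  have htr := hTrace.1 (matVac Ω) (bigSet a) hdense fun S hS T hT =>
    tr_mul_comm_matRep hMat hK hsys (hbig hS) (hbig hT)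
  obtain ⟨-, -, hnorm, hclose, -, -⟩ := hOps (matVac Ω) (bigSet a) hdense htr
  obtain ⟨hgenA, hgen⟩ := generate hSemi hCalc hMat hsys hK2 hclose
  have hle : vn (Set.range (triple a)) ⊆ vn (bigSet a) :=
    vn_le (Set.range_subset_iff.2 (triple_mem_big hSemi hCalc hsys))
  have hge : vn (bigSet a) ⊆ vn (Set.range (triple a)) := by
    refine vn_le ?_
    rintro _ ⟨i, j, c, hc, rfl⟩
    exact hgen i j c hc
  have hsa := isSelfAdjoint_triple hMat hK hsys.sa
  have hunit : ‖matVac (K := K) Ω‖ = 1 := (hMat K Ω hK).1 hsys.unit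
  refine ⟨⟨⟨hunit, hsa, fun i => ?_, fun i l => ?_⟩,
    fun S hS T hT => htr S (hle hS) T (hle hT), hdense.mono (Set.image_mono hge)⟩, hgenA⟩
  · refine hnorm _ (triple_mem_big hSemi hCalc hsys i) (hsa i) 2 zero_le_two fun n => ?_
    have h1 : ∀ {E : Type u} [NormedAddCommGroup E] [InnerProductSpace ℂ E] [CompleteSpace E]
        (Y : Fin 3 → E →L[ℂ] E), wprod Y (List.replicate n i) = Y i ^ n := fun Y => by
      simp [wprod, List.prod_replicate]
    have h2 : ∀ (Y : Fin 3 → H₂ →L[ℂ] H₂), wprod Y (List.replicate n i) = Y i ^ n := fun Y => by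
      simp [wprod, List.prod_replicate]
    have e : ‖(triple a i ^ n) (matVac Ω)‖ ^ 2 = ‖(X i ^ n) Ω₂‖ ^ 2 := by
      have h := hmom (List.replicate n i ++ List.replicate n i)
      rw [wprod_append, wprod_append, h1, h2] at h
      nth_rw 1 [← ((hsa i).pow n).star_eq] at h
      nth_rw 1 [← ((hX.sa i).pow n).star_eq] at h
      rw [tr_star_mul, tr_star_mul] at h
      exact_mod_cast h
    refine le_trans (le_of_eq ((sq_eq_sq₀ (norm_nonneg _) (norm_nonneg _)).1 e)) ?_
    calc ‖(X i ^ n) Ω₂‖ ≤ ‖X i ^ n‖ := norm_apply_le Ω₂ hX.unit _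
      _ ≤ ‖X i‖ ^ n := by
        rcases n.eq_zero_or_pos with rfl | hn
        · simp only [pow_zero]
          exact ContinuousLinearMap.norm_id_le
        · exact norm_pow_le' _ hn
      _ ≤ 2 ^ n := by gcongr; exact hX.bound i
  · rw [← wprod_cons, hmom, wprod_cons, hX.split]
    exact Finset.sum_congr rfl fun k _ => by rw [hmom, hmom]

end Vale.Agent.P086
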