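import Vale.Agent.P086.Model.MainMat

/-!
# The first two operators of the model generate the matrices over the first variables

Continuous functions of the diagonal operator give the diagonal units in the vector norm; the
absolute values in the first row of the second operator give the other units.
-/

noncomputable section

namespace Vale.Agent.P086

open scoped InnerProductSpace BigOperators Topology
open Filter MeasureTheory

universe u

variable {H : Type u} [NormedAddCommGroup H] [InnerProductSpace ℂ H] [CompleteSpace H] {K : ℕ}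

set_option linter.unusedSectionVars false

/-! ### Facts on the distribution function -/

lemma scF_clamp (t : ℝ) : scF t = scF (max (-2) (min t 2)) := by
  simp only [scF]
  congr 1
  rcases le_total t (-2) with h | h
  · rw [min_eq_left (h.trans (by norm_num)), max_eq_left h]
    norm_num
  · rcases le_total t 2 with h' | h'
    · rw [min_eq_left h', max_eq_right h, min_eq_left h', max_eq_right h]
    · rw [min_eq_right h']
      norm_num

lemma continuous_scDens : Continuous scDens := by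
  unfold scDens
  fun_prop

/-- Cut-off functions of the open unit interval. -/
def bump (n : ℕ) (u : ℝ) : ℝ := max 0 (min 1 (min (n * u) (n * (1 - u))))

lemma continuous_bump (n : ℕ) : Continuous (bump n) := by
  unfold bump
  fun_prop

lemma abs_bump_le (n : ℕ) (u : ℝ) : |bump n u| ≤ 1 := by
  unfold bump
  rw [abs_of_nonneg (le_max_left _ _)]
  exact max_le zero_le_one (min_le_left _ _)

lemma bump_eq_zero (n : ℕ) {u : ℝ} (h : u ≤ 0 ∨ 1 ≤ u) : bump n u = 0 := by
  have hn : (0 : ℝ) ≤ n := n.cast_nonneg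
  refine max_eq_left ?_
  rcases h with h | h
  · exact (min_le_right _ _).trans ((min_le_left _ _).trans (mul_nonpos_of_nonneg_of_nonpos hn h))
  · exact (min_le_right _ _).trans
      ((min_le_right _ _).trans (mul_nonpos_of_nonneg_of_nonpos hn (by linarith)))

lemma tendsto_bump {u : ℝ} (h0 : 0 < u) (h1 : u < 1) :
    Tendsto (fun n => bump n u) atTop (𝓝 1) := by
  refine tendsto_const_nhds.congr' ?_
  filter_upwards [eventually_ge_atTop ⌈u⁻¹⌉₊, eventually_ge_atTop ⌈(1 - u)⁻¹⌉₊] with n hn hn'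
  have h2 : 1 ≤ (n : ℝ) * u := by
    rw [← inv_le_iff_one_le_mul₀ h0]
    exact Nat.ceil_le.1 hn
  have h3 : 1 ≤ (n : ℝ) * (1 - u) := by
    rw [← inv_le_iff_one_le_mul₀ (by linarith)]
    exact Nat.ceil_le.1 hn'
  simp [bump, min_eq_left (le_min h2 h3)]

lemma scF_mem (hSemi : SemiGoal) (t : ℝ) : scF t ∈ Set.Icc (0 : ℝ) 1 := by
  obtain ⟨-, hm, -, h0, h2, -⟩ := hSemi
  rw [scF_clamp]
  exact ⟨h0 ▸ hm (le_max_left _ _), h2 ▸ hm (max_le (by norm_num) (min_le_right _ _))⟩

lemma scF_zero (hSemi : SemiGoal) : scF 0 = 1 / 2 := by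
  have h2 : scF 2 = 1 := hSemi.2.2.2.2.1
  have hi : ∀ a b : ℝ, IntervalIntegrable scDens volume a b := fun a b =>
    continuous_scDens.intervalIntegrable a b
  have e0 : scF 0 = ∫ x in (-2 : ℝ)..0, scDens x := by simp [scF]
  have e2 : scF 2 = (∫ x in (-2 : ℝ)..0, scDens x) + ∫ x in (0 : ℝ)..2, scDens x := by
    rw [intervalIntegral.integral_add_adjacent_intervals (hi _ _) (hi _ _)]
    norm_num [scF]
  have e3 : (∫ x in (0 : ℝ)..2, scDens x) = ∫ x in (-2 : ℝ)..0, scDens x := by
    have h := intervalIntegral.integral_comp_neg (a := (-2 : ℝ)) (b := 0) scDens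
    simp only [neg_zero, neg_neg] at h
    rw [← h]
    congr 1
    funext x
    simp [scDens]
  linarith [e0, e2, e3, h2]

lemma scF_piece (hSemi : SemiGoal) {K k : ℕ} (hk : k < K) (t : ℝ) :
    scF (piece K k t) = ((k : ℝ) + scF t) / K := by
  have hm := scF_mem hSemi t
  obtain ⟨-, -, -, -, -, -, -, -, hFI, -⟩ := hSemi
  have h1 : (k : ℝ) + 1 ≤ K := by exact_mod_cast hk
  have hK : (0 : ℝ) < K := lt_of_lt_of_le (by positivity) h1
  refine hFI _ ⟨div_nonneg (by linarith [hm.1, (k.cast_nonneg : (0 : ℝ) ≤ k)]) hK.le, ?_⟩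
  rw [div_le_one hK]
  linarith [hm.2]

lemma abs_piece_le (hSemi : SemiGoal) (K k : ℕ) (t : ℝ) : |piece K k t| ≤ 2 := by
  obtain ⟨-, -, -, -, -, -, -, hIr, -⟩ := hSemi
  exact abs_le.2 ⟨(hIr _).1, (hIr _).2⟩

lemma continuous_piece (hSemi : SemiGoal) (K k : ℕ) : Continuous (piece K k) := by
  obtain ⟨hFc, -, -, -, -, hIc, -⟩ := hSemi
  exact hIc.comp ((continuous_const.add hFc).div_const _)

lemma piece_two_nonneg (hSemi : SemiGoal) (t : ℝ) : 0 ≤ piece 2 1 t := by
  have hm := scF_mem hSemi t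
  have h0 := scF_zero hSemi
  obtain ⟨-, -, -, -, -, -, hIm, -, -, hIF, -⟩ := hSemi
  calc (0 : ℝ) = scInv (scF 0) := (hIF 0 ⟨by norm_num, by norm_num⟩).symm
    _ ≤ piece 2 1 t := hIm (by rw [h0]; push_cast; linarith [hm.1])

lemma piece_two_pos (hSemi : SemiGoal) {t : ℝ} (ht : t ∈ Set.Ioo (-2 : ℝ) 2) :
    0 < piece 2 1 t := by
  refine lt_of_le_of_ne (piece_two_nonneg hSemi t) fun h => ?_
  have h1 := scF_piece hSemi (show 1 < 2 by norm_num) t
  rw [← h, scF_zero hSemi] at h1
  obtain ⟨-, -, hFs, hF0, -⟩ := hSemi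
  have := hFs (Set.left_mem_Icc.2 (by norm_num)) ⟨ht.1.le, ht.2.le⟩ ht.1
  rw [hF0] at this
  push_cast at h1
  linarith

/-! ### Functional calculus -/

lemma spectrum_subset_Icc {a : H →L[ℂ] H} (hn : ‖a‖ ≤ 2) :
    spectrum ℝ a ⊆ Set.Icc (-2) 2 := fun x hx => by
  rcases subsingleton_or_nontrivial H with hs | hs
  · simp [spectrum.of_subsingleton] at hx
  · have h := (spectrum.norm_le_norm_of_mem hx).trans hn
    exact abs_le.1 h

/-- Polynomials approximating a function on the spectra of all operators of norm at most two. -/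
lemma exists_poly_tendsto {f : ℝ → ℝ} (hf : Continuous f) :
    ∃ p : ℕ → Polynomial ℝ, ∀ b : H →L[ℂ] H, IsSelfAdjoint b → ‖b‖ ≤ 2 →
      Tendsto (fun n => Polynomial.aeval b (p n)) atTop (𝓝 (cfc f b)) := by
  choose p hp using fun n : ℕ =>
    exists_polynomial_near_of_continuousOn (-2) 2 f hf.continuousOn (1 / (n + 1)) (by positivity)
  refine ⟨p, fun b hb hn => tendsto_iff_norm_sub_tendsto_zero.2 <|
    squeeze_zero (fun _ => norm_nonneg _) (fun n => ?_) tendsto_one_div_add_atTop_nhds_zero_nat⟩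
  rw [← cfc_polynomial (p n) b, ← cfc_sub _ _ b (by fun_prop) hf.continuousOn]
  exact norm_cfc_le (by positivity) fun x hx => (hp n x (spectrum_subset_Icc hn hx)).le

lemma real_smul_eq (r : ℝ) (x : H →L[ℂ] H) : r • x = (r : ℂ) • x := by
  rw [Complex.coe_smul]

lemma aeval_monomial_eq (x : H →L[ℂ] H) (n : ℕ) (r : ℝ) :
    Polynomial.aeval x (Polynomial.monomial n r) = (r : ℂ) • x ^ n := by
  rw [Polynomial.aeval_monomial, Algebra.algebraMap_eq_smul_one, smul_mul_assoc, one_mul,
    real_smul_eq]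

/-- Closed star subalgebras are stable under continuous functions. -/
lemma cfc_mem_closed (W : StarSubalgebra ℂ (H →L[ℂ] H)) (hW : IsClosed (W : Set (H →L[ℂ] H)))
    {b : H →L[ℂ] H} (hb : b ∈ W) (hsa : IsSelfAdjoint b) (hn : ‖b‖ ≤ 2) {f : ℝ → ℝ}
    (hf : Continuous f) : cfc f b ∈ W := by
  obtain ⟨p, hp⟩ := exists_poly_tendsto (H := H) hf
  refine hW.mem_of_tendsto (hp b hsa hn) (Eventually.of_forall fun n => ?_)
  induction p n using Polynomial.induction_on' with
  | add q r hq hr => rw [map_add]; exact add_mem hq hr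
  | monomial k r => rw [aeval_monomial_eq]; exact SMulMemClass.smul_mem _ (pow_mem hb k)

lemma norm_sq_cfc (hCalc : CalcGoal.{u}) {Ω : H} {ι : Type} [DecidableEq ι]
    {X : ι → H →L[ℂ] H} (hX : IsSC Ω X) (i : ι) {f : ℝ → ℝ} (hf : Continuous f) :
    ‖cfc f (X i) Ω‖ ^ 2 = ∫ t in (-2 : ℝ)..2, scDens t * f t ^ 2 := by
  have hsa : IsSelfAdjoint (cfc f (X i)) := cfc_predicate f _
  have h := ((hCalc Ω X hX i).2 (fun t => f t ^ 2) (hf.pow 2)).2.2
  rw [cfc_pow f 2 (X i) hf.continuousOn (hX.sa i), sq] at h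
  conv_lhs at h => arg 2; arg 1; rw [← hsa.star_eq]
  rw [tr_star_mul] at h
  exact_mod_cast h

/-- Dominated convergence for functions of one semicircular operator. -/
lemma tendsto_cfc_one (hCalc : CalcGoal.{u}) {Ω : H} {ι : Type} [DecidableEq ι]
    {X : ι → H →L[ℂ] H} (hX : IsSC Ω X) (i : ι) {f : ℕ → ℝ → ℝ} (hf : ∀ n, Continuous (f n))
    (hb : ∀ n t, |f n t| ≤ 1)
    (hlim : ∀ t ∈ Set.Ioo (-2 : ℝ) 2, Tendsto (fun n => f n t) atTop (𝓝 1)) :
    Tendsto (fun n => ‖(cfc (f n) (X i) - 1) Ω‖) atTop (𝓝 0) := by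
  have hint : Tendsto (fun n => ∫ t in (-2 : ℝ)..2, scDens t * (f n t - 1) ^ 2) atTop
      (𝓝 (∫ _t in (-2 : ℝ)..2, (0 : ℝ))) := by
    refine intervalIntegral.tendsto_integral_filter_of_dominated_convergence
      (fun t => |scDens t| * 4) ?_ ?_ ?_ ?_
    · exact Eventually.of_forall fun n =>
        (continuous_scDens.mul (((hf n).sub continuous_const).pow 2)).aestronglyMeasurable
    · refine Eventually.of_forall fun n => Eventually.of_forall fun t _ => ?_
      rw [Real.norm_eq_abs, abs_mul, abs_pow]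
      refine mul_le_mul_of_nonneg_left ?_ (abs_nonneg _)
      have h1 : |f n t - 1| ≤ 2 := by
        have := abs_sub (f n t) 1
        rw [abs_one] at this
        linarith [hb n t]
      calc |f n t - 1| ^ 2 ≤ 2 ^ 2 := by gcongr
        _ = 4 := by norm_num
    · exact (continuous_scDens.abs.mul continuous_const).intervalIntegrable _ _
    · have h2 : ∀ᵐ t : ℝ, t ≠ 2 := by
        rw [ae_iff]
        simp
      filter_upwards [h2] with t ht2 ht
      rw [Set.uIoc_of_le (by norm_num : (-2 : ℝ) ≤ 2)] at ht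
      have h := (((hlim t ⟨ht.1, lt_of_le_of_ne ht.2 ht2⟩).sub_const 1).pow 2).const_mul (scDens t)
      simpa using h
  rw [intervalIntegral.integral_zero] at hint
  have e : ∀ n, ‖(cfc (f n) (X i) - 1) Ω‖ =
      Real.sqrt (∫ t in (-2 : ℝ)..2, scDens t * (f n t - 1) ^ 2) := fun n => by
    rw [← norm_sq_cfc hCalc hX i (f := fun t => f n t - 1) ((hf n).sub continuous_const),
      Real.sqrt_sq (norm_nonneg _)]
    congr 2
    rw [cfc_sub (f n) (fun _ => 1) (X i) (hf n).continuousOn continuousOn_const,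
      cfc_const_one ℝ (X i) (hX.sa i)]
  simpa only [Real.sqrt_zero] using hint.sqrt.congr fun n => (e n).symm

/-! ### The diagonal -/

/-- The diagonal matrix with the given entries. -/
def diagM (d : Fin K → H →L[ℂ] H) (i j : Fin K) : H →L[ℂ] H := if i = j then d i else 0

lemma matRep_diagM (d : Fin K → H →L[ℂ] H) : matRep (diagM d) = ∑ i, unitM i i (d i) := by
  rw [matRep_eq_sum]
  refine Finset.sum_congr rfl fun i _ => ?_
  rw [Finset.sum_eq_single i (fun j _ hj => by rw [diagM, if_neg (Ne.symm hj), unitM_zero])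
    (by simp), diagM, if_pos rfl]

lemma matRep_diagM_mul (hMat : MatGoal.{u}) (hK : 0 < K) (d e : Fin K → H →L[ℂ] H) :
    matRep (diagM d) * matRep (diagM e) = matRep (diagM fun i => d i * e i) := by
  rw [((hMat K (0 : H) hK).2.1 (diagM d) (diagM e)).1]
  congr 1
  funext i j
  by_cases h : i = j
  · subst h; simp [diagM]
  · simp [diagM, h]

lemma matRep_diagM_pow (hMat : MatGoal.{u}) (hK : 0 < K) (d : Fin K → H →L[ℂ] H) (n : ℕ) :
    matRep (diagM d) ^ n = matRep (diagM fun i => d i ^ n) := by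
  induction n with
  | zero =>
    rw [pow_zero, ← (hMat K (0 : H) hK).2.2.2]
    simp only [pow_zero]
    rfl
  | succ n ih =>
    rw [pow_succ, ih, matRep_diagM_mul hMat hK]
    simp only [pow_succ]

lemma diag_cfc_mem (hMat : MatGoal.{u}) (hK : 0 < K) {s : Set (HK H K →L[ℂ] HK H K)}
    {d : Fin K → H →L[ℂ] H} (hd : matRep (diagM d) ∈ vn s) (hsa : ∀ i, IsSelfAdjoint (d i))
    (hn : ∀ i, ‖d i‖ ≤ 2) {f : ℝ → ℝ} (hf : Continuous f) :
    matRep (diagM fun i => cfc f (d i)) ∈ vn s := by
  obtain ⟨p, hp⟩ := exists_poly_tendsto (H := H) hf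
  rw [matRep_diagM]
  refine (isClosed_vn s).mem_of_tendsto (tendsto_finsetSum Finset.univ fun i _ =>
    ((continuous_unitM i i).tendsto _).comp (hp (d i) (hsa i) (hn i)))
    (Eventually.of_forall fun n => ?_)
  show (∑ i, unitM i i (Polynomial.aeval (d i) (p n))) ∈ vn s
  induction p n using Polynomial.induction_on' with
  | add q r hq hr =>
    simp only [map_add, unitM_add, Finset.sum_add_distrib]
    exact vn_add hq hr
  | monomial k r =>
    simp only [aeval_monomial_eq, unitM_smul, ← Finset.smul_sum, ← matRep_diagM]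
    rw [← matRep_diagM_pow hMat hK]
    exact vn_smul _ (vn_pow hd k)

/-! ### Generation -/

/-- All single entries over the algebra of the variables. -/
def bigSet (a : MIdx K → H →L[ℂ] H) : Set (HK H K →L[ℂ] HK H K) :=
  {T | ∃ i j, ∃ c ∈ vn (Set.range a), unitM i j c = T}

lemma matRep_mem_big {a : MIdx K → H →L[ℂ] H} {A : Fin K → Fin K → H →L[ℂ] H}
    (hA : ∀ i j, A i j ∈ vn (Set.range a)) : matRep A ∈ vn (bigSet a) := by
  rw [matRep_eq_sum]
  exact vn_sum _ fun i _ => vn_sum _ fun j _ => subset_vn _ ⟨i, j, _, hA i j, rfl⟩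

lemma herm_mem_vn {s : Set (H →L[ℂ] H)} {f : Fin K × Fin K → H →L[ℂ] H}
    (hf : ∀ p, f p ∈ vn s) (i j : Fin K) : herm f i j ∈ vn s := by
  unfold herm
  split_ifs
  · exact hf _
  · exact vn_smul _ (vn_add (hf _) (vn_smul _ (hf _)))
  · exact vn_smul _ (vn_sub (hf _) (vn_smul _ (hf _)))

/-- The coordinates are combinations of the entries of a Hermitian matrix. -/
lemma herm_coord {W : StarSubalgebra ℂ (H →L[ℂ] H)} {f : Fin K × Fin K → H →L[ℂ] H}
    {i j : Fin K} (h1 : herm f i j ∈ W) (h2 : herm f j i ∈ W) : f (i, j) ∈ W := by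
  have hc : (2 * ((Real.sqrt 2 : ℝ) : ℂ)⁻¹) ≠ 0 := by simp
  rcases eq_or_ne i j with rfl | hij
  · simpa [herm] using h1
  rcases lt_or_gt_of_ne hij with hlt | hlt
  · simp only [herm, if_neg hij, if_neg hij.symm, if_pos hlt, if_neg hlt.not_gt] at h1 h2
    have h3 : (2 * ((Real.sqrt 2 : ℝ) : ℂ)⁻¹) • f (i, j) ∈ W := by
      convert add_mem h1 h2 using 1
      module
    have h4 := SMulMemClass.smul_mem (2 * ((Real.sqrt 2 : ℝ) : ℂ)⁻¹)⁻¹ h3
    rwa [inv_smul_smul₀ hc] at h4
  · simp only [herm, if_neg hij, if_neg hij.symm, if_pos hlt, if_neg hlt.not_gt] at h1 h2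
    have h3 : (2 * ((Real.sqrt 2 : ℝ) : ℂ)⁻¹ * Complex.I) • f (i, j) ∈ W := by
      convert sub_mem h2 h1 using 1
      module
    have hc' : (2 * ((Real.sqrt 2 : ℝ) : ℂ)⁻¹ * Complex.I) ≠ 0 := mul_ne_zero hc Complex.I_ne_zero
    have h4 := SMulMemClass.smul_mem (2 * ((Real.sqrt 2 : ℝ) : ℂ)⁻¹ * Complex.I)⁻¹ h3
    rwa [inv_smul_smul₀ hc'] at h4

section Main

variable (hSemi : SemiGoal) (hCalc : CalcGoal.{u}) (hMat : MatGoal.{u}) {Ω : H}
  {a : MIdx K → H →L[ℂ] H} (hsys : IsSys Ω a)

include hCalc hsys in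
lemma cfc_mem_range {f : ℝ → ℝ} (hf : Continuous f) (k : MIdx K) :
    cfc f (a k) ∈ vn (Set.range a) :=
  vn_mono (Set.singleton_subset_iff.2 (Set.mem_range_self k))
    (((hCalc Ω a hsys.toIsSC k).2 f hf).2.1)

include hSemi hCalc hsys in
lemma triple_mem_big (i : Fin 3) : triple a i ∈ vn (bigSet a) := by
  fin_cases i
  · refine matRep_mem_big fun i j => ?_
    unfold xBlock
    split_ifs
    · exact cfc_mem_range hCalc hsys (continuous_piece hSemi _ _) _
    · exact vn_zero
  · refine vn_smul _ (matRep_mem_big fun i j => ?_)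
    unfold gaugedBlock
    split_ifs
    · exact cfc_mem_range hCalc hsys (continuous_piece hSemi _ _) _
    · exact cfc_mem_range hCalc hsys (continuous_piece hSemi _ _) _
    · refine herm_mem_vn (fun p => ?_) i j
      by_cases hp : ¬ ((p.2 : ℕ) = 0 ∧ (p.1 : ℕ) ≠ 0)
      · rw [dif_pos hp]
        exact subset_vn _ (Set.mem_range_self _)
      · rw [dif_neg hp]
        exact vn_zero
  · exact vn_smul _ (matRep_mem_big fun i j =>
      herm_mem_vn (fun p => subset_vn _ (Set.mem_range_self _)) i j)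

include hSemi hCalc hMat hsys in
/-- Everything is generated, given closure in the vector norm. -/
theorem generate (hK2 : 2 ≤ K)
    (hclose : ∀ t : Set (HK H K →L[ℂ] HK H K), t ⊆ vn (bigSet a) → ∀ T ∈ vn (bigSet a),
      (∀ ε : ℝ, 0 < ε → ∃ S ∈ vn t, ‖(T - S) (matVac Ω)‖ ≤ ε) → T ∈ vn t) :
    (∀ i j, ∀ c ∈ vn (Set.range fun k : AIdx K => a (.inl k)),
      unitM i j c ∈ vn {triple a 0, triple a 1}) ∧
    ∀ i j, ∀ c ∈ vn (Set.range a), unitM i j c ∈ vn (Set.range (triple a)) := by
  have hK : 0 < K := by omega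
  have hKne : ((Real.sqrt K : ℝ) : ℂ) ≠ 0 := by
    simp [hK.ne']
  set V := ({triple a 0, triple a 1} : Set (HK H K →L[ℂ] HK H K))
  have hV : V ⊆ vn (bigSet a) := by
    intro T hT
    rcases hT with rfl | rfl <;> exact triple_mem_big hSemi hCalc hsys _
  -- limits of functions in a single entry
  have hlimit : ∀ (i j : Fin K) (k : MIdx K) (f : ℕ → ℝ → ℝ), (∀ n, Continuous (f n)) →
      (∀ n t, |f n t| ≤ 1) → (∀ t ∈ Set.Ioo (-2 : ℝ) 2, Tendsto (fun n => f n t) atTop (𝓝 1)) →
      (∀ n, unitM i j (cfc (f n) (a k)) ∈ vn V) → unitM i j (1 : H →L[ℂ] H) ∈ vn V := by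
    intro i j k f hf hb hlim hmem
    refine hclose V hV _ (subset_vn _ ⟨i, j, 1, vn_one, rfl⟩) fun ε hε => ?_
    have ht := tendsto_cfc_one hCalc hsys.toIsSC k hf hb hlim
    obtain ⟨n, hn⟩ := (ht.eventually (gt_mem_nhds hε)).exists
    refine ⟨_, hmem n, ?_⟩
    rw [← unitM_sub]
    have h1 := norm_unitM_apply_vac hMat hK Ω i j (1 - cfc (f n) (a k))
    have h2 : ‖(1 - cfc (f n) (a k)) Ω‖ = ‖(cfc (f n) (a k) - 1) Ω‖ := by
      simp only [sub_apply]
      rw [norm_sub_rev]
    have h3 : (K : ℝ)⁻¹ ≤ 1 := inv_le_one_of_one_le₀ (by exact_mod_cast hK)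
    refine (abs_le_of_sq_le_sq' ?_ hε.le).2
    rw [h1, h2]
    calc (K : ℝ)⁻¹ * ‖(cfc (f n) (a k) - 1) Ω‖ ^ 2 ≤ 1 * ε ^ 2 := by gcongr
      _ = ε ^ 2 := one_mul _
  have hT0 : triple a 0 ∈ vn V := subset_vn _ (Or.inl rfl)
  have hT1 : triple a 1 ∈ vn V := subset_vn _ (Or.inr rfl)
  -- functions of the diagonal operator
  set ax : Fin K → H →L[ℂ] H := fun k => a (.inl (.inl k))
  have hx : matRep (diagM fun k : Fin K => cfc (piece K k) (ax k)) ∈ vn V := by
    convert hT0 using 2
    simp only [triple, Matrix.cons_val_zero]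
    rfl
  have hdiag : ∀ f : ℝ → ℝ, Continuous f →
      matRep (diagM fun k : Fin K => cfc (fun t => f (piece K k t)) (ax k)) ∈ vn V := by
    intro f hf
    have h := diag_cfc_mem hMat hK hx (fun k => cfc_predicate _ _)
      (fun k => norm_cfc_le (by norm_num) fun x _ => abs_piece_le hSemi _ _ x) hf
    convert h using 4 with k
    exact cfc_comp f (piece K k) (ax k) (hsys.sa _) hf.continuousOn
      (continuous_piece hSemi K k).continuousOn
  have hFc : Continuous scF := hSemi.1
  have hIc : Continuous scInv := hSemi.2.2.2.2.2.1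
  have hIF : ∀ t ∈ Set.Icc (-2 : ℝ) 2, scInv (scF t) = t := hSemi.2.2.2.2.2.2.2.2.2.1
  have hKr : (K : ℝ) ≠ 0 := by exact_mod_cast hK.ne'
  -- the diagonal units
  have he : ∀ i : Fin K, unitM i i (1 : H →L[ℂ] H) ∈ vn V := by
    intro i
    refine hlimit i i (.inl (.inl i)) (fun n t => bump n (scF t))
      (fun n => (continuous_bump n).comp hFc) (fun n t => abs_bump_le n _) (fun t ht => ?_)
      (fun n => ?_)
    · obtain ⟨-, -, hFs, hF0, hF2, -⟩ := hSemi
      refine tendsto_bump ?_ ?_
      · rw [← hF0]; exact hFs (Set.left_mem_Icc.2 (by norm_num)) ⟨ht.1.le, ht.2.le⟩ ht.1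
      · rw [← hF2]; exact hFs ⟨ht.1.le, ht.2.le⟩ (Set.right_mem_Icc.2 (by norm_num)) ht.2
    · have h := hdiag (fun z => bump n ((K : ℝ) * scF z - (i : ℕ)))
        ((continuous_bump n).comp ((continuous_const.mul hFc).sub continuous_const))
      convert h using 1
      rw [matRep_diagM, Finset.sum_eq_single i]
      · congr 1
        refine cfc_congr fun t _ => ?_
        simp [scF_piece hSemi i.2, mul_div_cancel₀ _ hKr]
      · intro k _ hk
        have h0 : cfc (fun t => bump n ((K : ℝ) * scF (piece K k t) - (i : ℕ))) (ax k) = 0 := by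
          refine Eq.trans (cfc_congr fun t _ => ?_) (cfc_const_zero ℝ (ax k))
          rw [scF_piece hSemi k.2, mul_div_cancel₀ _ hKr]
          refine bump_eq_zero n ?_
          have hm := scF_mem hSemi t
          rcases lt_or_gt_of_ne hk with hlt | hlt
          · left
            have : ((k : ℕ) : ℝ) + 1 ≤ (i : ℕ) := by exact_mod_cast hlt
            linarith [hm.2]
          · right
            have : ((i : ℕ) : ℝ) + 1 ≤ (k : ℕ) := by exact_mod_cast hlt
            linarith [hm.1]
        rw [h0, unitM_zero]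
      · simp
  let W : Fin K → StarSubalgebra ℂ (H →L[ℂ] H) := fun i => corner hMat hK V i (he i)
  have hcorner : ∀ i j (A : Fin K → Fin K → H →L[ℂ] H), matRep A ∈ vn V →
      unitM i j (A i j) ∈ vn V := fun i j A hA => by
    rw [← unitM_mul_matRep_mul]
    exact vn_mul (vn_mul (he i) hA) (he j)
  -- the variables on the diagonal
  have hax : ∀ i : Fin K, unitM i i (ax i) ∈ vn V := by
    intro i
    have h := hcorner i i _ (hdiag (fun z => scInv ((K : ℝ) * scF z - (i : ℕ)))
      (hIc.comp ((continuous_const.mul hFc).sub continuous_const)))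
    simp only [diagM, if_pos] at h
    convert h using 2
    conv_lhs => rw [← cfc_id' ℝ (ax i) (hsys.sa _)]
    refine cfc_congr fun t ht => ?_
    simp only [scF_piece hSemi i.2, mul_div_cancel₀ _ hKr, add_sub_cancel_left]
    exact (hIF t (spectrum_subset_Icc (hsys.bound _) ht)).symm
  -- the entries of the second operator
  set ay : YIdx K → H →L[ℂ] H := fun p => a (.inl (.inr p))
  have hy : ∀ i j, unitM i j (gaugedBlock ay i j) ∈ vn V := by
    intro i j
    refine hcorner i j _ ?_
    have h := vn_smul ((Real.sqrt K : ℝ) : ℂ) hT1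
    convert h using 1
    simp only [triple, Matrix.cons_val_one, Matrix.cons_val_zero, smul_smul]
    rw [mul_inv_cancel₀ hKne, one_smul]
  let z : Fin K := ⟨0, hK⟩
  have hrow : ∀ j : Fin K, (j : ℕ) ≠ 0 →
      unitM z j (1 : H →L[ℂ] H) ∈ vn V ∧ ∀ hp, ay ⟨(z, j), hp⟩ ∈ W z := by
    intro j hj
    have hp0 : ¬ (((z, j) : Fin K × Fin K).2.val = 0 ∧ (z, j).1.val ≠ 0) := fun hh => hj hh.1
    set c := ay ⟨(z, j), hp0⟩ with hc
    have hcsa : IsSelfAdjoint c := hsys.sa _
    have hcn : ‖c‖ ≤ 2 := hsys.bound _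
    set g := piece 2 1 with hg
    have hgc : Continuous g := continuous_piece hSemi 2 1
    have hG : unitM z j (cfc g c) ∈ vn V := by
      have h := hy z j
      unfold gaugedBlock at h
      rwa [dif_pos ⟨rfl, hj⟩] at h
    have hsq : cfc (fun t => g t ^ 2) c ∈ W z := by
      rw [mem_corner, cfc_pow g 2 c hgc.continuousOn hcsa, sq]
      have hG' : unitM j z (cfc g c) ∈ vn V := by
        have h := vn_star hG
        rwa [star_unitM hMat hK, (cfc_predicate g c).star_eq] at h
      rw [← unitM_mul z j z]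
      exact vn_mul hG hG'
    have hsq_n : ‖cfc (fun t => g t ^ 2 / 2) c‖ ≤ 2 :=
      norm_cfc_le (by norm_num) fun x _ => by
        rw [Real.norm_eq_abs, abs_of_nonneg (by positivity)]
        have h1 := abs_piece_le hSemi 2 1 x
        rw [abs_of_nonneg (piece_two_nonneg hSemi x)] at h1
        nlinarith [piece_two_nonneg hSemi x]
    have hsq' : cfc (fun t => g t ^ 2 / 2) c ∈ W z := by
      have e : cfc (fun t => g t ^ 2 / 2) c = ((1 / 2 : ℝ) : ℂ) • cfc (fun t => g t ^ 2) c := by
        rw [← real_smul_eq, ← cfc_smul (1 / 2 : ℝ) (fun t => g t ^ 2) c (hgc.pow 2).continuousOn]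
        refine cfc_congr fun t _ => ?_
        simp only [smul_eq_mul]
        ring
      rw [e]
      exact SMulMemClass.smul_mem _ hsq
    -- functions of the absolute value
    have hfun : ∀ f : ℝ → ℝ, Continuous f → cfc (fun t => f (g t)) c ∈ W z := by
      intro f hf
      have h := cfc_mem_closed (W z) (isClosed_corner hMat hK V z (he z)) hsq'
        (cfc_predicate _ _) hsq_n (f := fun s => f (Real.sqrt (2 * s)))
        (hf.comp (Real.continuous_sqrt.comp (continuous_const.mul continuous_id)))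
      rw [← cfc_comp (fun s => f (Real.sqrt (2 * s))) (fun t => g t ^ 2 / 2) c hcsa
        (hf.comp (Real.continuous_sqrt.comp (continuous_const.mul continuous_id))).continuousOn
        ((hgc.pow 2).div_const _).continuousOn] at h
      convert h using 1
      refine cfc_congr fun t _ => ?_
      simp only [Function.comp_apply]
      rw [mul_div_cancel₀ _ two_ne_zero, Real.sqrt_sq (piece_two_nonneg hSemi t)]
    refine ⟨?_, fun hp => ?_⟩
    · refine hlimit z j (.inl (.inr ⟨(z, j), hp0⟩))
        (fun n t => (n : ℝ) / (n * |g t| + 1) * g t) (fun n => ?_) (fun n t => ?_)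
        (fun t ht => ?_) (fun n => ?_)
      · exact (continuous_const.div ((continuous_const.mul hgc.abs).add continuous_const)
          fun t => ne_of_gt (add_pos_of_nonneg_of_pos
            (mul_nonneg n.cast_nonneg (abs_nonneg _)) one_pos)).mul hgc
      · have h1 := piece_two_nonneg hSemi t
        rw [← hg] at h1
        rw [abs_of_nonneg h1, abs_of_nonneg (by positivity), div_mul_eq_mul_div,
          div_le_one (by positivity)]
        linarith
      · have h1 := piece_two_pos hSemi ht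
        rw [← hg] at h1
        have h2 : Tendsto (fun n : ℕ => (1 : ℝ) - ((n : ℝ) * g t + 1)⁻¹) atTop (𝓝 (1 - 0)) :=
          tendsto_const_nhds.sub (tendsto_inv_atTop_zero.comp (tendsto_atTop_add_const_right _ _
            (tendsto_natCast_atTop_atTop.atTop_mul_const h1)))
        rw [sub_zero] at h2
        refine h2.congr fun n => ?_
        rw [abs_of_pos h1]
        field_simp
        ring
      · have hf : Continuous fun s : ℝ => (n : ℝ) / (n * |s| + 1) :=
          continuous_const.div ((continuous_const.mul continuous_abs).add continuous_const)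
            fun s => ne_of_gt (add_pos_of_nonneg_of_pos
              (mul_nonneg n.cast_nonneg (abs_nonneg _)) one_pos)
        have h := vn_mul ((mem_corner hMat hK).1 (hfun _ hf)) hG
        rw [unitM_mul, ← cfc_mul (fun t => (n : ℝ) / (n * |g t| + 1)) g c
          (hf.comp hgc).continuousOn hgc.continuousOn] at h
        exact h
    · have h := hfun (fun s => scInv (2 * scF s - 1))
        (hIc.comp ((continuous_const.mul hFc).sub continuous_const))
      convert h using 1
      conv_lhs => rw [show ay ⟨(z, j), hp⟩ = c from rfl, ← cfc_id' ℝ c hcsa]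
      refine cfc_congr fun t ht => ?_
      rw [hg, scF_piece hSemi (show 1 < 2 by norm_num)]
      push_cast
      rw [show 2 * ((1 + scF t) / 2) - 1 = scF t by ring]
      exact (hIF t (spectrum_subset_Icc hcn ht)).symm
  have hz : ∀ j : Fin K, unitM z j (1 : H →L[ℂ] H) ∈ vn V := fun j => by
    by_cases hj : (j : ℕ) = 0
    · obtain rfl : j = z := Fin.ext hj
      exact he z
    · exact (hrow j hj).1
  have h1 : ∀ i j : Fin K, unitM i j (1 : H →L[ℂ] H) ∈ vn V := fun i j => by
    have h := vn_star (hz i)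
    rw [star_unitM hMat hK, star_one] at h
    have h' := vn_mul h (hz j)
    rwa [unitM_mul, one_mul] at h'
  have htrans : ∀ (s : Set (HK H K →L[ℂ] HK H K)),
      (∀ i j : Fin K, unitM i j (1 : H →L[ℂ] H) ∈ vn s) → ∀ i j k l c, unitM i j c ∈ vn s →
        unitM k l c ∈ vn s := by
    intro s hs i j k l c h
    have h' := vn_mul (vn_mul (hs k i) h) (hs j l)
    rwa [unitM_mul, unitM_mul, one_mul, mul_one] at h'
  have hA : ∀ k : AIdx K, a (.inl k) ∈ W z := by
    rintro (i | ⟨⟨i, j⟩, hp⟩)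
    · exact htrans V h1 i i z z _ (hax i)
    by_cases hi : (i : ℕ) = 0 ∧ (j : ℕ) ≠ 0
    · obtain rfl : i = z := Fin.ext hi.1
      exact (hrow j hi.2).2 hp
    · have hij : ¬ ((j : ℕ) = 0 ∧ (i : ℕ) ≠ 0) := hp
      have hm : ∀ k l, unitM k l (gaugedBlock ay k l) ∈ vn V → gaugedBlock ay k l ∈ W z :=
        fun k l h => htrans V h1 k l z z _ h
      have e1 := hm i j (hy i j)
      have e2 := hm j i (hy j i)
      unfold gaugedBlock at e1 e2
      rw [dif_neg hi, dif_neg hij] at e1
      rw [dif_neg hij, dif_neg hi] at e2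
      have e3 := herm_coord e1 e2
      rw [dif_pos hp] at e3
      exact e3
  have hgenA : ∀ i j, ∀ c ∈ vn (Set.range fun k : AIdx K => a (.inl k)), unitM i j c ∈ vn V := by
    intro i j c hc
    refine unitM_mem_vn hMat hK V _ h1 ?_ hc i j
    rintro _ ⟨k, rfl⟩ i'
    exact htrans V h1 z z i' i' _ (hA k)
  refine ⟨hgenA, ?_⟩
  have hVT : vn V ⊆ vn (Set.range (triple a)) := by
    refine vn_mono ?_
    intro T hT
    rcases hT with rfl | rfl <;> exact Set.mem_range_self _
  set U := Set.range (triple a)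
  have hU1 : ∀ i j : Fin K, unitM i j (1 : H →L[ℂ] H) ∈ vn U := fun i j => hVT (h1 i j)
  have hs : ∀ i j : Fin K, herm (fun p => a (.inr p)) i j ∈ corner hMat hK U z (hU1 z z) := by
    intro i j
    refine htrans U hU1 i j z z _ ?_
    rw [← unitM_mul_matRep_mul i j]
    refine vn_mul (vn_mul (hU1 i i) ?_) (hU1 j j)
    have h := vn_smul ((Real.sqrt K : ℝ) : ℂ) (subset_vn U (Set.mem_range_self (2 : Fin 3)))
    convert h using 1
    simp only [triple, Matrix.cons_val, smul_smul]
    rw [mul_inv_cancel₀ hKne, one_smul]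
  intro i j c hc
  refine unitM_mem_vn hMat hK U _ hU1 ?_ hc i j
  rintro _ ⟨k | ⟨p, q⟩, rfl⟩ i'
  · exact htrans U hU1 z z i' i' _ (hVT (hA k))
  · exact htrans U hU1 z z i' i' _ (herm_coord (hs p q) (hs q p) :
      (fun p => a (.inr p)) (p, q) ∈ corner hMat hK U z (hU1 z z))

end Main

end Vale.Agent.P086
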