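import Vale.Agent.P086.Spec
import Vale.Agent.P086.Lemmas

/-!
# Matrix units for matrices of operators

Tools for `ModelGoal`: the one-entry matrices, the corner subalgebras of a generated algebra, and
the passage from generators to generated algebras entry by entry.
-/

noncomputable section

namespace Vale.Agent.P086

open scoped InnerProductSpace BigOperators

universe u

variable {H : Type u} [NormedAddCommGroup H] [InnerProductSpace ℂ H] [CompleteSpace H] {K : ℕ}

set_option linter.unusedSectionVars false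

lemma matRep_apply_main (A : Fin K → Fin K → H →L[ℂ] H) (ξ : HK H K) (p : Fin K × Fin K) :
    matRep A ξ p = ∑ j, A p.1 j (ξ (j, p.2)) := by
  simp [matRep]

/-- The operator of the matrix with the single entry `c` at `(i, j)`. -/
def unitM (i j : Fin K) (c : H →L[ℂ] H) : HK H K →L[ℂ] HK H K := matRep (entry i j c)

lemma unitM_apply (i j : Fin K) (c : H →L[ℂ] H) (ξ : HK H K) (p : Fin K × Fin K) :
    unitM i j c ξ p = if p.1 = i then c (ξ (j, p.2)) else 0 := by
  rw [unitM, matRep_apply_main]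
  simp only [entry]
  by_cases h : p.1 = i
  · rw [if_pos h, Finset.sum_eq_single j]
    · rw [if_pos ⟨h, rfl⟩]
    · intro k _ hk
      rw [if_neg (fun hh => hk hh.2)]
      rfl
    · intro hj
      exact absurd (Finset.mem_univ _) hj
  · rw [if_neg h]
    refine Finset.sum_eq_zero fun k _ => ?_
    rw [if_neg (fun hh => h hh.1)]
    rfl

lemma unitM_add (i j : Fin K) (c d : H →L[ℂ] H) :
    unitM i j (c + d) = unitM i j c + unitM i j d := by
  refine ContinuousLinearMap.ext fun ξ => PiLp.ext fun p => ?_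
  simp only [unitM_apply, add_apply, PiLp.add_apply]
  split_ifs <;> simp

lemma unitM_smul (i j : Fin K) (z : ℂ) (c : H →L[ℂ] H) :
    unitM i j (z • c) = z • unitM i j c := by
  refine ContinuousLinearMap.ext fun ξ => PiLp.ext fun p => ?_
  simp only [unitM_apply, smul_apply, PiLp.smul_apply]
  split_ifs <;> simp

lemma unitM_zero (i j : Fin K) : unitM i j (0 : H →L[ℂ] H) = 0 := by
  refine ContinuousLinearMap.ext fun ξ => PiLp.ext fun p => ?_
  simp [unitM_apply]

lemma unitM_sub (i j : Fin K) (c d : H →L[ℂ] H) :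
    unitM i j (c - d) = unitM i j c - unitM i j d := by
  rw [eq_sub_iff_add_eq, ← unitM_add, sub_add_cancel]

lemma unitM_mul (i j l : Fin K) (c d : H →L[ℂ] H) :
    unitM i j c * unitM j l d = unitM i l (c * d) := by
  refine ContinuousLinearMap.ext fun ξ => PiLp.ext fun p => ?_
  simp only [mul_apply_eq_comp, unitM_apply, if_true]

lemma unitM_mul_of_ne (i j k l : Fin K) (h : j ≠ k) (c d : H →L[ℂ] H) :
    unitM i j c * unitM k l d = 0 := by
  refine ContinuousLinearMap.ext fun ξ => PiLp.ext fun p => ?_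
  simp [mul_apply_eq_comp, unitM_apply, h]

lemma matRep_eq_sum (A : Fin K → Fin K → H →L[ℂ] H) :
    matRep A = ∑ i, ∑ j, unitM i j (A i j) := by
  refine ContinuousLinearMap.ext fun ξ => PiLp.ext fun p => ?_
  simp [matRep_apply_main, unitM_apply, sum_apply]

lemma unitM_mul_matRep_mul (i j : Fin K) (A : Fin K → Fin K → H →L[ℂ] H) :
    unitM i i 1 * matRep A * unitM j j 1 = unitM i j (A i j) := by
  refine ContinuousLinearMap.ext fun ξ => PiLp.ext fun p => ?_
  simp only [mul_apply_eq_comp, unitM_apply, one_apply_eq_self, matRep_apply_main]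
  split_ifs with h
  · rw [Finset.sum_eq_single j]
    · simp
    · intro k _ hk; simp [hk]
    · intro hj; exact absurd (Finset.mem_univ _) hj
  · rfl

lemma star_unitM (hMat : MatGoal.{u}) (hK : 0 < K) (i j : Fin K) (c : H →L[ℂ] H) :
    star (unitM i j c) = unitM j i (star c) := by
  rw [unitM, ((hMat K (0 : H) hK).2.1 _ (entry i j c)).2.1]
  congr 1
  funext k l
  by_cases h : l = i ∧ k = j
  · simp [entry, h.1, h.2]
  · have h' : ¬ (k = j ∧ l = i) := fun hh => h ⟨hh.2, hh.1⟩
    simp [entry, h, h']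

lemma norm_unitM_apply_vac (hMat : MatGoal.{u}) (hK : 0 < K) (Ω : H) (i j : Fin K)
    (c : H →L[ℂ] H) : ‖unitM i j c (matVac Ω)‖ ^ 2 = (K : ℝ)⁻¹ * ‖c Ω‖ ^ 2 := by
  rw [unitM, ((hMat K Ω hK).2.1 _ (entry i j c)).2.2.2.2]
  congr 1
  rw [Finset.sum_eq_single i, Finset.sum_eq_single j]
  · simp [entry]
  · intro k _ hk; simp [entry, hk]
  · simp
  · intro k _ hk
    refine Finset.sum_eq_zero fun l _ => ?_
    simp [entry, hk]
  · simp

/-- The map to the single entries is continuous. -/
lemma continuous_unitM (i j : Fin K) : Continuous (unitM (H := H) i j) := by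
  let L : (H →L[ℂ] H) →ₗ[ℂ] (HK H K →L[ℂ] HK H K) :=
    { toFun := unitM i j
      map_add' := unitM_add i j
      map_smul' := fun z c => unitM_smul i j z c }
  let A : (H →L[ℂ] H) → (Fin K × Fin K → H →L[ℂ] H) := fun c p => entry i j c p.1 p.2
  refine (L.mkContinuousOfExistsBound ?_).continuous
  refine ⟨K, fun c => ContinuousLinearMap.opNorm_le_bound _ (by positivity) fun ξ => ?_⟩
  show ‖unitM i j c ξ‖ ≤ _
  have hsq : ‖unitM i j c ξ‖ ^ 2 ≤ (‖c‖ * ‖ξ‖) ^ 2 * K := by
    rw [PiLp.norm_sq_eq_of_L2, Fintype.sum_prod_type]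
    rw [Finset.sum_eq_single i (fun k _ hk => by simp [unitM_apply, hk]) (by simp)]
    calc ∑ q, ‖unitM i j c ξ (i, q)‖ ^ 2 ≤ ∑ _q : Fin K, (‖c‖ * ‖ξ‖) ^ 2 := by
          refine Finset.sum_le_sum fun q _ => ?_
          rw [unitM_apply, if_pos rfl]
          gcongr
          exact (c.le_opNorm _).trans (by gcongr; exact PiLp.norm_apply_le ξ _)
      _ = _ := by simp; ring
  have hK1 : (1 : ℝ) ≤ K := by exact_mod_cast Nat.one_le_iff_ne_zero.2 (by
    rintro rfl; exact i.elim0)
  refine (abs_le_of_sq_le_sq' (hsq.trans ?_) (by positivity)).2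
  have h1 : (K : ℝ) ≤ (K : ℝ) ^ 2 := by nlinarith
  calc (‖c‖ * ‖ξ‖) ^ 2 * K ≤ (‖c‖ * ‖ξ‖) ^ 2 * (K : ℝ) ^ 2 := by gcongr
    _ = _ := by ring

/-- The entries whose matrix lies in a generated algebra, on the diagonal. -/
def corner (hMat : MatGoal.{u}) (hK : 0 < K) (s : Set (HK H K →L[ℂ] HK H K)) (i : Fin K)
    (h1 : unitM i i (1 : H →L[ℂ] H) ∈ vn s) : StarSubalgebra ℂ (H →L[ℂ] H) where
  carrier := {c | unitM i i c ∈ vn s}
  mul_mem' {c d} hc hd := by
    show unitM i i (c * d) ∈ vn s
    rw [← unitM_mul i i i]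
    exact vn_mul hc hd
  add_mem' {c d} hc hd := by
    show unitM i i (c + d) ∈ vn s
    rw [unitM_add]
    exact vn_add hc hd
  one_mem' := h1
  zero_mem' := by
    show unitM i i 0 ∈ vn s
    rw [unitM_zero]
    exact vn_zero
  algebraMap_mem' z := by
    show unitM i i (algebraMap ℂ (H →L[ℂ] H) z) ∈ vn s
    rw [Algebra.algebraMap_eq_smul_one, unitM_smul]
    exact vn_smul z h1
  star_mem' {c} hc := by
    show unitM i i (star c) ∈ vn s
    rw [← star_unitM hMat hK]
    exact vn_star hc

lemma mem_corner (hMat : MatGoal.{u}) (hK : 0 < K) {s : Set (HK H K →L[ℂ] HK H K)} {i : Fin K}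
    {h1 : unitM i i (1 : H →L[ℂ] H) ∈ vn s} {c : H →L[ℂ] H} :
    c ∈ corner hMat hK s i h1 ↔ unitM i i c ∈ vn s := Iff.rfl

lemma isClosed_corner (hMat : MatGoal.{u}) (hK : 0 < K) (s : Set (HK H K →L[ℂ] HK H K))
    (i : Fin K) (h1 : unitM i i (1 : H →L[ℂ] H) ∈ vn s) :
    IsClosed (corner hMat hK s i h1 : Set (H →L[ℂ] H)) :=
  (isClosed_vn s).preimage (continuous_unitM i i)

/-! ### From generators to generated algebras, entry by entry -/

/-- The inclusion of a coordinate. -/
def ins (p : Fin K × Fin K) : H →L[ℂ] HK H K :=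
  ((PiLp.continuousLinearEquiv 2 ℂ fun _ : Fin K × Fin K => H).symm :
      (Fin K × Fin K → H) →L[ℂ] HK H K).comp
    (ContinuousLinearMap.single ℂ (fun _ : Fin K × Fin K => H) p)

lemma ins_apply (p q : Fin K × Fin K) (v : H) : ins p v q = if q = p then v else 0 := by
  simp [ins]

lemma sum_ins (ξ : HK H K) : ∑ p, ins p (ξ p) = ξ := by
  refine PiLp.ext fun q => ?_
  simp [ins_apply]

lemma unitM_ins (i j k q : Fin K) (c : H →L[ℂ] H) (v : H) :
    unitM i j c (ins (k, q) v) = if j = k then ins (i, q) (c v) else 0 := by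
  refine PiLp.ext fun p => ?_
  obtain ⟨r, q'⟩ := p
  rw [unitM_apply, ins_apply]
  by_cases hj : j = k
  · subst hj
    rw [if_pos rfl, ins_apply]
    by_cases hr : r = i <;> by_cases hq : q' = q <;> simp [hr, hq]
  · simp [hj]

/-- If all matrix units and all single entries of generators are in a generated algebra, then so
are all single entries of elements of the algebra of the generators. -/
theorem unitM_mem_vn (hMat : MatGoal.{u}) (hK : 0 < K) (s : Set (HK H K →L[ℂ] HK H K))
    (t : Set (H →L[ℂ] H)) (h1 : ∀ i j : Fin K, unitM i j (1 : H →L[ℂ] H) ∈ vn s)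
    (hgen : ∀ c ∈ t, ∀ i : Fin K, unitM i i c ∈ vn s) {c : H →L[ℂ] H} (hc : c ∈ vn t)
    (i j : Fin K) : unitM i j c ∈ vn s := by
  intro y hy
  have hcomm : ∀ T ∈ vn s, y * T = T * y := fun T hT => hT y hy
  -- the blocks of `y`
  let blk : Fin K × Fin K → Fin K × Fin K → H →L[ℂ] H := fun p p' =>
    (PiLp.proj 2 (fun _ : Fin K × Fin K => H) p).comp (y.comp (ins p'))
  have hblk : ∀ p p' v, blk p p' v = y (ins p' v) p := fun _ _ _ => rfl
  have key : ∀ (a b : Fin K) (d : H →L[ℂ] H), unitM a b d ∈ vn s → ∀ r q k q' v,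
      (if b = k then blk (r, q) (a, q') (d v) else 0) =
        if r = a then d (blk (b, q) (k, q') v) else 0 := by
    intro a b d hd r q k q' v
    have h := congrArg (fun T : HK H K →L[ℂ] HK H K => T (ins (k, q') v) (r, q)) (hcomm _ hd)
    simp only [mul_apply_eq_comp, unitM_ins, unitM_apply] at h
    rw [hblk, hblk]
    by_cases hb : b = k
    · rw [if_pos hb] at h ⊢
      exact h
    · rw [if_neg hb] at h ⊢
      simpa using h
  -- the reduced operator
  obtain ⟨o⟩ : Nonempty (Fin K) := ⟨i⟩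
  have hred : ∀ (r q a q' : Fin K) (v : H), blk (r, q) (a, q') v =
      if r = a then blk (o, q) (o, q') v else 0 := by
    intro r q a q' v
    simpa using key a o 1 (h1 a o) r q o q' v
  have hY : ∀ q q', blk (o, q) (o, q') ∈ Set.centralizer (t ∪ star '' t) := by
    intro q q' d hd
    have hd' : unitM o o d ∈ vn s := by
      rcases hd with hd | ⟨z, hz, rfl⟩
      · exact hgen d hd o
      · rw [← star_unitM hMat hK]
        exact vn_star (hgen z hz o)
    refine ContinuousLinearMap.ext fun v => ?_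
    simpa using (key o o d hd' o q o q' v).symm
  -- commutation
  refine ContinuousLinearMap.ext fun ξ => ?_
  rw [← sum_ins ξ]
  simp only [map_sum]
  refine Finset.sum_congr rfl fun p _ => PiLp.ext fun p' => ?_
  obtain ⟨k, q'⟩ := p
  obtain ⟨r, q⟩ := p'
  generalize ξ (k, q') = v
  simp only [mul_apply_eq_comp, unitM_ins, unitM_apply]
  rw [← hblk, hred]
  have hcY : ∀ w, blk (o, q) (o, q') (c w) = c (blk (o, q) (o, q') w) := fun w =>
    congrArg (fun T : H →L[ℂ] H => T w) (hc _ (hY q q'))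
  by_cases hj : j = k <;> by_cases hr : r = i
  · subst hj hr
    rw [if_pos rfl, if_pos rfl, ← hblk, hred, if_pos rfl, if_pos rfl, hcY]
  · subst hj
    rw [if_pos rfl, if_neg hr, ← hblk, hred, if_neg hr]
  · subst hr
    rw [if_neg hj, if_pos rfl, if_neg hj]
    simp
  · rw [if_neg hj, if_neg hr]
    simp

end Vale.Agent.P086
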