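import Vale.Agent.P086.Spec

/-!
# Matrices of operators on the standard space of matrices
-/

noncomputable section

namespace Vale.Agent.P086

open scoped InnerProductSpace BigOperators ComplexConjugate

universe u

variable {H : Type u} [NormedAddCommGroup H] [InnerProductSpace ℂ H] [CompleteSpace H] {K : ℕ}

omit [CompleteSpace H] in
@[simp] lemma matRep_apply (A : Fin K → Fin K → H →L[ℂ] H) (v : HK H K) (p : Fin K × Fin K) :
    matRep A v p = ∑ j, A p.1 j (v (j, p.2)) := by
  simp [matRep]

omit [CompleteSpace H] in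
lemma matVac_apply (Ω : H) (p : Fin K × Fin K) :
    matVac (K := K) Ω p = if p.1 = p.2 then ((Real.sqrt K)⁻¹ : ℂ) • Ω else 0 := rfl

omit [CompleteSpace H] in
lemma matRep_matVac (A : Fin K → Fin K → H →L[ℂ] H) (Ω : H) (p : Fin K × Fin K) :
    matRep A (matVac Ω) p = ((Real.sqrt K)⁻¹ : ℂ) • A p.1 p.2 Ω := by
  simp [matVac_apply, apply_ite]

omit [CompleteSpace H] in
lemma matRep_mul (A B : Fin K → Fin K → H →L[ℂ] H) :
    matRep A * matRep B = matRep (fun i j => ∑ k, A i k * B k j) := by
  ext v p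
  simp only [mul_apply_eq_comp, matRep_apply, map_sum, sum_apply]
  exact Finset.sum_comm

omit [CompleteSpace H] in
lemma matRep_add (A B : Fin K → Fin K → H →L[ℂ] H) :
    matRep A + matRep B = matRep (fun i j => A i j + B i j) := by
  ext v p
  simp [Finset.sum_add_distrib]

omit [CompleteSpace H] in
lemma matRep_smul (c : ℂ) (A : Fin K → Fin K → H →L[ℂ] H) :
    c • matRep A = matRep (fun i j => c • A i j) := by
  ext v p
  simp [Finset.smul_sum]

omit [CompleteSpace H] in
lemma matRep_one :
    (matRep fun i j => if i = j then (1 : H →L[ℂ] H) else 0) = (1 : HK H K →L[ℂ] HK H K) := by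
  ext v p
  simp only [matRep_apply, one_apply_eq_self]
  rw [Finset.sum_eq_single p.1 (fun x _ hx => by simp [Ne.symm hx]) (by simp)]
  simp

lemma star_matRep (A : Fin K → Fin K → H →L[ℂ] H) :
    star (matRep A) = matRep (fun i j => star (A j i)) := by
  rw [ContinuousLinearMap.star_eq_adjoint]
  symm
  refine (ContinuousLinearMap.eq_adjoint_iff _ _).2 fun x y => ?_
  simp only [PiLp.inner_apply, matRep_apply, Fintype.sum_prod_type, sum_inner, inner_sum,
    ContinuousLinearMap.star_eq_adjoint, ContinuousLinearMap.adjoint_inner_left]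
  rw [Finset.sum_comm]
  conv_rhs => rw [Finset.sum_comm]
  exact Finset.sum_congr rfl fun k _ => Finset.sum_comm

theorem matGoal : MatGoal.{u} := by
  intro H _ _ _ K Ω hK
  have hK0 : (0 : ℝ) < K := Nat.cast_pos.2 hK
  have hs : ‖((Real.sqrt K)⁻¹ : ℂ)‖ ^ 2 = (K : ℝ)⁻¹ := by
    rw [norm_inv, Complex.norm_real, inv_pow, Real.norm_eq_abs, sq_abs, Real.sq_sqrt hK0.le]
  refine ⟨fun hΩ => ?_, fun A B => ⟨matRep_mul A B, star_matRep A, matRep_add A B, ?_, ?_⟩,
    matRep_smul, matRep_one⟩
  · refine (pow_left_inj₀ (norm_nonneg _) zero_le_one two_ne_zero).1 ?_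
    rw [PiLp.norm_sq_eq_of_L2, Fintype.sum_prod_type]
    simp [matVac_apply, apply_ite, norm_smul, hΩ, hK0.ne']
  · simp only [tr, PiLp.inner_apply, matRep_matVac, Fintype.sum_prod_type, Finset.mul_sum]
    simp only [matVac_apply, inner_smul_right]
    refine Finset.sum_congr rfl fun i _ => ?_
    rw [Finset.sum_eq_single i (fun x _ hx => by simp [Ne.symm hx]) (by simp), if_pos rfl,
      inner_smul_left, map_inv₀, Complex.conj_ofReal]
    have : ((Real.sqrt K : ℂ)) * (Real.sqrt K : ℂ) = (K : ℂ) := by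
      rw [← Complex.ofReal_mul, Real.mul_self_sqrt hK0.le, Complex.ofReal_natCast]
    rw [← mul_assoc, ← mul_inv, this]
  · rw [PiLp.norm_sq_eq_of_L2, Fintype.sum_prod_type]
    simp only [matRep_matVac, norm_smul, mul_pow, hs, Finset.mul_sum]

end Vale.Agent.P086
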