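import Vale.Agent.P086.Spec
import Vale.Agent.P086.Lemmas

/-!
# The moments of the triple before the gauge

Generic part: a matrix whose entries are linear in a set of letters of a family obeying the
recursion `split` obeys the same recursion against words in matrices with entries free of those
letters.  Then the diagonal of the pieces is approximated by polynomials.
-/

noncomputable section

namespace Vale.Agent.P086

open scoped InnerProductSpace BigOperators

universe u v

namespace Raw

variable {H : Type u} [NormedAddCommGroup H] [InnerProductSpace ℂ H] [CompleteSpace H]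
variable {ι κ : Type} [DecidableEq ι] [DecidableEq κ] {K : ℕ}

set_option linter.unusedSectionVars false

/-- The vector state as a linear map. -/
def trL (Ω : H) : (H →L[ℂ] H) →ₗ[ℂ] ℂ where
  toFun := tr Ω
  map_add' := tr_add Ω
  map_smul' := fun c a => by simp [tr_smul]

@[simp] lemma trL_apply (Ω : H) (a : H →L[ℂ] H) : trL Ω a = tr Ω a := rfl

/-- The right side of the recursion for the letter `q` along a word. -/
def dL (Ω : H) (b : ι → H →L[ℂ] H) (q : ι) : List ι → (H →L[ℂ] H) → (H →L[ℂ] H) →ₗ[ℂ] ℂ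
  | [], _ => 0
  | p :: u, pre =>
      (if p = q then tr Ω pre else 0) • (trL Ω).comp (LinearMap.mulLeft ℂ (wprod b u))
        + dL Ω b q u (pre * b p)

@[simp] lemma dL_nil (Ω : H) (b : ι → H →L[ℂ] H) (q : ι) (pre w : H →L[ℂ] H) :
    dL Ω b q [] pre w = 0 := rfl

@[simp] lemma dL_cons (Ω : H) (b : ι → H →L[ℂ] H) (q p : ι) (u : List ι)
    (pre w : H →L[ℂ] H) : dL Ω b q (p :: u) pre w =
      (if p = q then tr Ω pre else 0) * tr Ω (wprod b u * w)
        + dL Ω b q u (pre * b p) w := rfl

lemma dL_append (Ω : H) (b : ι → H →L[ℂ] H) (q : ι) (u v : List ι) (pre w : H →L[ℂ] H) :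
    dL Ω b q (u ++ v) pre w
      = dL Ω b q u pre (wprod b v * w) + dL Ω b q v (pre * wprod b u) w := by
  induction u generalizing pre with
  | nil => simp [wprod_nil]
  | cons p u ih =>
    simp only [List.cons_append, dL_cons, ih, wprod_append, wprod_cons, mul_assoc]
    ring

lemma dL_free (Ω : H) (b : ι → H →L[ℂ] H) (q : ι) (v : List ι) (hv : q ∉ v)
    (pre w : H →L[ℂ] H) : dL Ω b q v pre w = 0 := by
  induction v generalizing pre with
  | nil => simp
  | cons p v ih =>
    rw [List.mem_cons, not_or] at hv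
    simp [Ne.symm hv.1, ih hv.2]

lemma sum_eq_dL (Ω : H) (b : ι → H →L[ℂ] H) (q : ι) (u : List ι) (pre : H →L[ℂ] H) :
    (∑ k : Fin u.length, if u.get k = q then
        tr Ω (pre * wprod b (u.take k.val)) * tr Ω (wprod b (u.drop (k.val + 1))) else 0)
      = dL Ω b q u pre 1 := by
  induction u generalizing pre with
  | nil => simp
  | cons p u ih =>
    rw [dL_cons, ← ih (pre * b p)]
    simp only [List.length_cons]
    rw [Fin.sum_univ_succ]
    congr 1
    simp [wprod_nil, ite_mul]

lemma split_dL {Ω : H} {b : ι → H →L[ℂ] H} (hb : IsSC Ω b) (q : ι) (u : List ι) :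
    tr Ω (b q * wprod b u) = dL Ω b q u 1 1 := by
  rw [hb.split, ← sum_eq_dL]
  exact Finset.sum_congr rfl fun k _ => by rw [one_mul]

/-- Product of a family of matrices along a list. -/
def wM (M : κ → Matrix (Fin K) (Fin K) (H →L[ℂ] H)) (l : List κ) :
    Matrix (Fin K) (Fin K) (H →L[ℂ] H) := (l.map M).prod

lemma wM_cons (M : κ → Matrix (Fin K) (Fin K) (H →L[ℂ] H)) (m : κ) (l : List κ) :
    wM M (m :: l) = M m * wM M l := rfl

lemma wM_append (M : κ → Matrix (Fin K) (Fin K) (H →L[ℂ] H)) (l m : List κ) :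
    wM M (l ++ m) = wM M l * wM M m := by
  simp [wM]

/-- The sum of the traces of the diagonal. -/
def Tr (Ω : H) (A : Matrix (Fin K) (Fin K) (H →L[ℂ] H)) : ℂ := ∑ i, tr Ω (A i i)

/-- The contributions of the outer letters `y`; `g` holds the coefficients of the chosen letter. -/
def outer (Ω : H) (M : κ → Matrix (Fin K) (Fin K) (H →L[ℂ] H)) (y : κ)
    (g : Fin K → Fin K → ℂ) : List κ → Fin K → Fin K → (H →L[ℂ] H) →ₗ[ℂ] ℂ
  | [], _, _ => 0
  | m :: l, r, s =>
      (if m = y then ∑ t, g r t * tr Ω (wM M l t s) else 0) • trL Ω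
        + ∑ t, (outer Ω M y g l t s).comp (LinearMap.mulRight ℂ (M m r t))

@[simp] lemma outer_nil (Ω : H) (M : κ → Matrix (Fin K) (Fin K) (H →L[ℂ] H)) (y : κ)
    (g : Fin K → Fin K → ℂ) (r s : Fin K) (a : H →L[ℂ] H) : outer Ω M y g [] r s a = 0 := rfl

lemma outer_cons (Ω : H) (M : κ → Matrix (Fin K) (Fin K) (H →L[ℂ] H)) (y : κ)
    (g : Fin K → Fin K → ℂ) (m : κ) (l : List κ) (r s : Fin K) (a : H →L[ℂ] H) :
    outer Ω M y g (m :: l) r s a =
      (if m = y then ∑ t, g r t * tr Ω (wM M l t s) else 0) * tr Ω a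
        + ∑ t, outer Ω M y g l t s (a * M m r t) := by
  simp only [outer, LinearMap.add_apply, LinearMap.smul_apply, LinearMap.coe_sum, Finset.sum_apply,
    LinearMap.comp_apply, LinearMap.mulRight_apply, trL_apply, smul_eq_mul]

variable {π : Type} [Fintype π] [DecidableEq π]

lemma split_entry {Ω : H} {b : ι → H →L[ℂ] H} (hb : IsSC Ω b)
    (M : κ → Matrix (Fin K) (Fin K) (H →L[ℂ] H)) (y : κ) (inj : π → ι)
    (hinj : Function.Injective inj) (γ : Fin K → Fin K → π → ℂ)
    (hy : ∀ r t, M y r t = ∑ p, γ r t p • b (inj p))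
    (ho : ∀ m, m ≠ y → ∀ r t,
      M m r t ∈ Submodule.span ℂ (wprod b '' {v | ∀ p, inj p ∉ v}))
    (q : π) : ∀ (l : List κ) (u : List ι) (r s : Fin K),
      tr Ω (b (inj q) * wprod b u * wM M l r s)
        = dL Ω b (inj q) u 1 (wM M l r s)
          + outer Ω M y (fun r t => γ r t q) l r s (wprod b u) := by
  intro l
  induction l with
  | nil =>
    intro u r s
    rcases eq_or_ne r s with h | h
    · subst h
      simp [wM, split_dL hb]
    · simp [wM, Matrix.one_apply_ne h, tr]
  | cons m l ih =>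
    intro u r s
    rw [wM_cons, Matrix.mul_apply, outer_cons]
    let Δ : Fin K → (H →L[ℂ] H) →ₗ[ℂ] ℂ := fun t =>
      ((trL Ω).comp (LinearMap.mulLeft ℂ (b (inj q) * wprod b u))).comp
          (LinearMap.mulRight ℂ (wM M l t s))
        - (dL Ω b (inj q) u 1).comp (LinearMap.mulRight ℂ (wM M l t s))
        - (outer Ω M y (fun r t => γ r t q) l t s).comp (LinearMap.mulLeft ℂ (wprod b u))
    have hΔ : ∀ t x, Δ t x = tr Ω (b (inj q) * wprod b u * (x * wM M l t s))
        - dL Ω b (inj q) u 1 (x * wM M l t s)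
        - outer Ω M y (fun r t => γ r t q) l t s (wprod b u * x) := fun t x => rfl
    have hword : ∀ t (v : List ι),
        Δ t (wprod b v) = dL Ω b (inj q) v (wprod b u) (wM M l t s) := by
      intro t v
      have h := ih (u ++ v) t s
      rw [wprod_append, dL_append, one_mul] at h
      rw [hΔ, ← mul_assoc (b (inj q) * wprod b u), mul_assoc (b (inj q)) (wprod b u), h]
      ring
    have hval : ∀ t, Δ t (M m r t)
        = if m = y then γ r t q * tr Ω (wM M l t s) * tr Ω (wprod b u) else 0 := by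
      intro t
      by_cases hm : m = y
      · subst hm
        have hsingle : ∀ p, Δ t (b (inj p))
            = if p = q then tr Ω (wM M l t s) * tr Ω (wprod b u) else 0 := by
          intro p
          have h := hword t [inj p]
          simp only [wprod_cons, wprod_nil, mul_one] at h
          rw [h]
          simp [wprod_nil, hinj.eq_iff, mul_comm]
        rw [hy, map_sum, if_pos rfl]
        simp [map_smul, hsingle, mul_assoc]
      · rw [if_neg hm]
        have h0 : Set.EqOn (Δ t) (0 : (H →L[ℂ] H) →ₗ[ℂ] ℂ)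
            (wprod b '' {v | ∀ p, inj p ∉ v}) := by
          rintro _ ⟨v, hv, rfl⟩
          rw [hword, dL_free Ω b (inj q) v (hv q)]
          rfl
        exact LinearMap.eqOn_span h0 (ho m hm r t)
    have hsum : ∀ t, tr Ω (b (inj q) * wprod b u * (M m r t * wM M l t s))
        = dL Ω b (inj q) u 1 (M m r t * wM M l t s)
          + ((if m = y then γ r t q * tr Ω (wM M l t s) else 0) * tr Ω (wprod b u)
          + outer Ω M y (fun r t => γ r t q) l t s (wprod b u * M m r t)) := by
      intro t
      have h := hval t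
      rw [hΔ] at h
      rw [ite_mul, zero_mul]
      linear_combination h
    rw [Finset.mul_sum, ← trL_apply, map_sum, map_sum]
    simp only [trL_apply, hsum, Finset.sum_add_distrib]
    congr 2
    split_ifs with hm <;> simp [Finset.sum_mul]

/-- A matrix of fresh letters with the covariance `σ` obeys the recursion of a semicircular
element against words in matrices free of its letters. -/
theorem matSplit {Ω : H} {b : ι → H →L[ℂ] H} (hb : IsSC Ω b)
    (M : κ → Matrix (Fin K) (Fin K) (H →L[ℂ] H)) (y : κ) (inj : π → ι)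
    (hinj : Function.Injective inj) (γ : Fin K → Fin K → π → ℂ) (σ : ℂ)
    (hcov : ∀ i j r t, ∑ p, γ i j p * γ r t p = if t = i ∧ r = j then σ else 0)
    (hy : ∀ r t, M y r t = ∑ p, γ r t p • b (inj p))
    (ho : ∀ m, m ≠ y → ∀ r t,
      M m r t ∈ Submodule.span ℂ (wprod b '' {v | ∀ p, inj p ∉ v}))
    (l : List κ) :
    Tr Ω (wM M (y :: l)) = σ * ∑ k : Fin l.length, if l.get k = y then
      Tr Ω (wM M (l.take k.val)) * Tr Ω (wM M (l.drop (k.val + 1))) else 0 := by
  let g : π → Fin K → Fin K → ℂ := fun p r t => γ r t p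
  let G : List κ → Matrix (Fin K) (Fin K) (H →L[ℂ] H) → ℂ := fun l P =>
    ∑ p, ∑ i, ∑ j, γ i j p * ∑ r, outer Ω M y (g p) l r i (P j r)
  have hG : ∀ (l : List κ) (P : Matrix (Fin K) (Fin K) (H →L[ℂ] H)),
      G l P = σ * ∑ k : Fin l.length, if l.get k = y then
        Tr Ω (P * wM M (l.take k.val)) * Tr Ω (wM M (l.drop (k.val + 1))) else 0 := by
    intro l
    induction l with
    | nil => intro P; simp [G]
    | cons m l ih =>
      intro P
      have h1 : G (m :: l) P
          = (if m = y then σ * (Tr Ω P * Tr Ω (wM M l)) else 0) + G l (P * M m) := by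
        simp only [G, outer_cons, Finset.sum_add_distrib, mul_add]
        congr 1
        · split_ifs with hm
          · calc (∑ p, ∑ i, ∑ j, γ i j p *
                  ∑ r, (∑ t, g p r t * tr Ω (wM M l t i)) * tr Ω (P j r))
                = ∑ i, ∑ j, ∑ r, ∑ t, (∑ p, γ i j p * γ r t p) *
                    (tr Ω (wM M l t i) * tr Ω (P j r)) := by
                  simp only [g, Finset.mul_sum, Finset.sum_mul]
                  rw [Finset.sum_comm]
                  refine Finset.sum_congr rfl fun i _ => ?_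
                  rw [Finset.sum_comm]
                  refine Finset.sum_congr rfl fun j _ => ?_
                  rw [Finset.sum_comm]
                  refine Finset.sum_congr rfl fun r _ => ?_
                  rw [Finset.sum_comm]
                  refine Finset.sum_congr rfl fun t _ => ?_
                  exact Finset.sum_congr rfl fun p _ => by ring
              _ = σ * (Tr Ω P * Tr Ω (wM M l)) := by
                  simp only [hcov, ite_and, ite_mul, zero_mul, Finset.sum_ite_eq',
                    Finset.mem_univ, if_true, Tr, Finset.mul_sum, Finset.sum_mul]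
                  exact Finset.sum_congr rfl fun i _ => Finset.sum_congr rfl fun j _ => by ring
          · simp
        · refine Finset.sum_congr rfl fun p _ => Finset.sum_congr rfl fun i _ =>
            Finset.sum_congr rfl fun j _ => ?_
          rw [Finset.sum_comm]
          simp [Matrix.mul_apply, map_sum]
      rw [h1, ih]
      simp only [List.length_cons]
      rw [Fin.sum_univ_succ, mul_add]
      congr 1
      · simp [wM, mul_ite]
      · congr 1
        refine Finset.sum_congr rfl fun k _ => ?_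
        simp [wM_cons, mul_assoc]
  have h2 := hG l 1
  simp only [one_mul] at h2
  rw [← h2]
  have h3 : ∀ p r i, outer Ω M y (g p) l r i 1 = tr Ω (b (inj p) * wM M l r i) := by
    intro p r i
    have h := split_entry hb M y inj hinj γ hy ho p l [] r i
    simp only [wprod_nil, mul_one, dL_nil, zero_add] at h
    exact h.symm
  have h4 : ∀ p j i, ∑ r, outer Ω M y (g p) l r i ((1 : Matrix (Fin K) (Fin K) (H →L[ℂ] H)) j r)
      = tr Ω (b (inj p) * wM M l j i) := by
    intro p j i
    rw [Finset.sum_eq_single j (fun r _ hr => by simp [Matrix.one_apply_ne hr.symm])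
      (by simp), Matrix.one_apply_eq, h3]
  simp only [G, h4, wM_cons, Tr, Matrix.mul_apply, ← trL_apply, map_sum, hy, Finset.sum_mul,
    smul_mul_assoc, map_smul, smul_eq_mul]
  rw [eq_comm, Finset.sum_comm]
  exact Finset.sum_congr rfl fun i _ => Finset.sum_comm

/-- The coefficients of the Hermitian coordinates. -/
def hc (i j : Fin K) (p : Fin K × Fin K) : ℂ :=
  if i = j then (if p = (i, i) then 1 else 0)
  else if i < j then ((Real.sqrt 2)⁻¹ : ℂ) *
    ((if p = (i, j) then 1 else 0) + Complex.I * (if p = (j, i) then 1 else 0))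
  else ((Real.sqrt 2)⁻¹ : ℂ) *
    ((if p = (j, i) then 1 else 0) - Complex.I * (if p = (i, j) then 1 else 0))

lemma herm_eq_sum (a : Fin K × Fin K → H →L[ℂ] H) (i j : Fin K) :
    herm a i j = ∑ p, hc i j p • a p := by
  unfold herm hc
  split_ifs <;>
    simp [ite_smul, mul_add, mul_sub, add_smul, sub_smul, smul_add, smul_sub,
      Finset.sum_add_distrib, Finset.sum_sub_distrib, ← mul_smul]

lemma hc_cov (i j r t : Fin K) :
    ∑ p, hc i j p * hc r t p = if t = i ∧ r = j then (1 : ℂ) else 0 := by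
  have hs : ((Real.sqrt 2)⁻¹ : ℂ) * ((Real.sqrt 2)⁻¹ : ℂ) = 1 / 2 := by
    rw [← mul_inv, ← Complex.ofReal_mul, Real.mul_self_sqrt (by norm_num)]
    norm_num
  have hI := Complex.I_mul_I
  have key : ∀ f : Fin K × Fin K → ℂ, ∑ p, hc i j p * f p = if i = j then f (i, i)
      else if i < j then ((Real.sqrt 2)⁻¹ : ℂ) * (f (i, j) + Complex.I * f (j, i))
      else ((Real.sqrt 2)⁻¹ : ℂ) * (f (j, i) - Complex.I * f (i, j)) := by
    intro f
    unfold hc
    split_ifs <;>
      simp [mul_add, mul_sub, add_mul, sub_mul, Finset.sum_add_distrib, Finset.sum_sub_distrib,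
        mul_assoc]
  rw [key]
  by_cases h1 : r = j ∧ t = i
  · obtain ⟨rfl, rfl⟩ := h1
    rcases lt_trichotomy t r with h | h | h
    · simp [hc, h, h.ne, h.ne', h.not_gt]
      linear_combination 2 * hs - ((Real.sqrt 2)⁻¹ : ℂ) * ((Real.sqrt 2)⁻¹ : ℂ) * hI
    · subst h; simp [hc]
    · simp [hc, h, h.ne, h.ne', h.not_gt]
      linear_combination 2 * hs - ((Real.sqrt 2)⁻¹ : ℂ) * ((Real.sqrt 2)⁻¹ : ℂ) * hI
  · rw [if_neg (show ¬(t = i ∧ r = j) from fun h => h1 ⟨h.2, h.1⟩)]
    by_cases h2 : r = i ∧ t = j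
    · obtain ⟨rfl, rfl⟩ := h2
      have hne : r ≠ t := fun e => h1 ⟨e, e.symm⟩
      rcases lt_or_gt_of_ne hne with h | h
      · simp [hc, hne, hne.symm, h]
        linear_combination ((Real.sqrt 2)⁻¹ : ℂ) * hI
      · simp [hc, hne, hne.symm, h.not_gt]
        linear_combination ((Real.sqrt 2)⁻¹ : ℂ) * hI
    · have hz : ∀ p : Fin K × Fin K, p ≠ (r, t) → p ≠ (t, r) → hc r t p = 0 := by
        intro p hp hp'
        unfold hc
        by_cases hrt : r = t
        · subst hrt; simp [hp]
        · simp [hrt, hp, hp']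
      have e1 : hc r t (i, j) = 0 := hz _
        (fun e => h2 ⟨(Prod.mk.injEq .. ▸ e).1.symm, (Prod.mk.injEq .. ▸ e).2.symm⟩)
        (fun e => h1 ⟨(Prod.mk.injEq .. ▸ e).2.symm, (Prod.mk.injEq .. ▸ e).1.symm⟩)
      have e2 : hc r t (j, i) = 0 := hz _
        (fun e => h1 ⟨(Prod.mk.injEq .. ▸ e).1.symm, (Prod.mk.injEq .. ▸ e).2.symm⟩)
        (fun e => h2 ⟨(Prod.mk.injEq .. ▸ e).2.symm, (Prod.mk.injEq .. ▸ e).1.symm⟩)
      split_ifs with h3 h4
      · subst h3; exact e1
      · simp [e1, e2]
      · simp [e1, e2]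

/-- The matrices of the triple with an arbitrary diagonal. -/
def mats (b : RIdx K → H →L[ℂ] H) (c : Fin K → H →L[ℂ] H) :
    Fin 3 → Matrix (Fin K) (Fin K) (H →L[ℂ] H) :=
  ![Matrix.diagonal c,
    Matrix.of fun i j => ((Real.sqrt K)⁻¹ : ℂ) • herm (fun p => b (.inr (.inl p))) i j,
    Matrix.of fun i j => ((Real.sqrt K)⁻¹ : ℂ) • herm (fun p => b (.inr (.inr p))) i j]

/-- The span of the powers of a diagonal letter. -/
def powSpan (b : RIdx K → H →L[ℂ] H) (i : Fin K) : Submodule ℂ (H →L[ℂ] H) :=
  Submodule.span ℂ (Set.range fun n : ℕ => wprod b (List.replicate n (Sum.inl i)))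

lemma mem_closure_powSpan {Ω : H} {b : RIdx K → H →L[ℂ] H} (hb : IsSC Ω b) (i : Fin K)
    (f : ℂ → ℂ) : cfc f (b (.inl i)) ∈ closure (powSpan b i : Set (H →L[ℂ] H)) := by
  refine closure_mono ?_ (cfc_mem_elemental f (b (.inl i)))
  intro x hx
  have hx' : x ∈ (StarAlgebra.adjoin ℂ {b (.inl i)}).toSubalgebra := hx
  rw [StarAlgebra.adjoin_toSubalgebra, Set.star_singleton, (hb.sa (.inl i)).star_eq,
    Set.union_self, Algebra.adjoin_singleton_eq_range_aeval] at hx'
  obtain ⟨p, rfl⟩ := hx'
  simp only [AlgHom.toRingHom_eq_coe, RingHom.coe_coe, Polynomial.aeval_eq_sum_range,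
    SetLike.mem_coe]
  refine Submodule.sum_mem _ fun n _ => Submodule.smul_mem _ _ (Submodule.subset_span ⟨n, ?_⟩)
  simp [wprod]

/-- The split recursion for the second and third matrices, with a polynomial diagonal. -/
lemma split_poly {Ω : H} {b : RIdx K → H →L[ℂ] H} (hb : IsSC Ω b)
    (c : Fin K → H →L[ℂ] H) (hc' : ∀ i, c i ∈ powSpan b i) (y : Fin 3) (hy0 : y ≠ 0)
    (l : List (Fin 3)) :
    Tr Ω (wM (mats b c) (y :: l)) = (K : ℂ)⁻¹ * ∑ k : Fin l.length, if l.get k = y then
      Tr Ω (wM (mats b c) (l.take k.val)) * Tr Ω (wM (mats b c) (l.drop (k.val + 1))) else 0 := by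
  have hs : ((Real.sqrt K)⁻¹ : ℂ) * ((Real.sqrt K)⁻¹ : ℂ) = (K : ℂ)⁻¹ := by
    rw [← mul_inv, ← Complex.ofReal_mul, Real.mul_self_sqrt (Nat.cast_nonneg K),
      Complex.ofReal_natCast]
  let γ : Fin K → Fin K → Fin K × Fin K → ℂ := fun r t p => ((Real.sqrt K)⁻¹ : ℂ) * hc r t p
  have hcov : ∀ i j r t, ∑ p, γ i j p * γ r t p
      = if t = i ∧ r = j then (K : ℂ)⁻¹ else 0 := by
    intro i j r t
    simp only [γ, mul_mul_mul_comm _ (hc i j _), hs, ← Finset.mul_sum, hc_cov, mul_ite,
      mul_one, mul_zero]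
  have hlin : ∀ (S : Submodule ℂ (H →L[ℂ] H)) (a : Fin K × Fin K → H →L[ℂ] H) (r t : Fin K),
      (∀ p, a p ∈ S) → ((Real.sqrt K)⁻¹ : ℂ) • herm a r t ∈ S := fun S a r t ha => by
    rw [herm_eq_sum]
    exact S.smul_mem _ (S.sum_mem fun p _ => S.smul_mem _ (ha p))
  have hdiag : ∀ (inj : Fin K × Fin K → RIdx K), (∀ p i, inj p ≠ Sum.inl i) → ∀ r t,
      Matrix.diagonal c r t ∈ Submodule.span ℂ (wprod b '' {v | ∀ p, inj p ∉ v}) := by
    intro inj hd r t
    rw [Matrix.diagonal_apply]
    split_ifs with h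
    · refine Submodule.span_mono ?_ (hc' r)
      rintro _ ⟨n, rfl⟩
      exact ⟨_, fun p hp => hd p r (List.eq_of_mem_replicate hp), rfl⟩
    · exact Submodule.zero_mem _
  have hoff : ∀ (inj inj' : Fin K × Fin K → RIdx K), (∀ p p', inj p ≠ inj' p') → ∀ r t,
      ((Real.sqrt K)⁻¹ : ℂ) • herm (fun p => b (inj' p)) r t
        ∈ Submodule.span ℂ (wprod b '' {v | ∀ p, inj p ∉ v}) := by
    intro inj inj' hne r t
    refine hlin _ _ r t fun p => Submodule.subset_span ⟨[inj' p], ?_, by simp [wprod]⟩
    intro p' hp'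
    exact hne p' p (List.mem_singleton.1 hp')
  fin_cases y
  · exact absurd rfl hy0
  · refine matSplit hb (mats b c) 1 (fun p => Sum.inr (Sum.inl p)) (fun p p' h => by simpa using h)
      γ _ hcov (fun r t => ?_) (fun m hm => ?_) l
    · simp [mats, γ, herm_eq_sum, Finset.smul_sum, mul_smul]
    · fin_cases m
      · exact hdiag _ (fun p i => by simp)
      · exact absurd rfl hm
      · exact hoff _ (fun p => Sum.inr (Sum.inr p)) (fun p p' => by simp)
  · refine matSplit hb (mats b c) 2 (fun p => Sum.inr (Sum.inr p)) (fun p p' h => by simpa using h)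
      γ _ hcov (fun r t => ?_) (fun m hm => ?_) l
    · simp [mats, γ, herm_eq_sum, Finset.smul_sum, mul_smul]
    · fin_cases m
      · exact hdiag _ (fun p i => by simp)
      · exact hoff _ (fun p => Sum.inr (Sum.inl p)) (fun p p' => by simp)
      · exact absurd rfl hm

lemma continuous_Tr_wM (Ω : H) (b : RIdx K → H →L[ℂ] H) (l : List (Fin 3)) :
    Continuous fun c => Tr Ω (wM (mats b c) l) := by
  have hm : ∀ m, Continuous fun c => mats b c m := by
    intro m
    fin_cases m
    · exact continuous_id.matrix_diagonal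
    · exact continuous_const
    · exact continuous_const
  have hw : Continuous fun c => wM (mats b c) l := continuous_list_prod l fun m _ => hm m
  refine continuous_finsetSum _ fun i _ => ?_
  exact Continuous.inner continuous_const
    ((ContinuousLinearMap.apply ℂ H Ω).continuous.comp (hw.matrix_elem i i))

/-- The split recursion extends to closures of polynomial diagonals. -/
lemma split_closure {Ω : H} {b : RIdx K → H →L[ℂ] H} (hb : IsSC Ω b)
    (c : Fin K → H →L[ℂ] H) (hc' : ∀ i, c i ∈ closure (powSpan b i : Set (H →L[ℂ] H)))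
    (y : Fin 3) (hy0 : y ≠ 0) (l : List (Fin 3)) :
    Tr Ω (wM (mats b c) (y :: l)) = (K : ℂ)⁻¹ * ∑ k : Fin l.length, if l.get k = y then
      Tr Ω (wM (mats b c) (l.take k.val)) * Tr Ω (wM (mats b c) (l.drop (k.val + 1))) else 0 := by
  have hmem : c ∈ closure (Set.pi Set.univ fun i => (powSpan b i : Set (H →L[ℂ] H))) := by
    rw [closure_pi_set]
    exact fun i _ => hc' i
  refine Set.EqOn.closure (fun d hd => split_poly hb d (fun i => Set.mem_univ_pi.1 hd i) y hy0 l)
    (continuous_Tr_wM Ω b _) ?_ hmem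
  refine continuous_const.mul (continuous_finsetSum _ fun k _ => ?_)
  split_ifs
  · exact (continuous_Tr_wM Ω b _).mul (continuous_Tr_wM Ω b _)
  · exact continuous_const

lemma wM_entry_mem {b : RIdx K → H →L[ℂ] H} {c : Fin K → H →L[ℂ] H}
    (hc' : ∀ i, c i ∈ vn (Set.range b)) (l : List (Fin 3)) :
    ∀ i j, wM (mats b c) l i j ∈ vn (Set.range b) := by
  have hb' : ∀ k, b k ∈ vn (Set.range b) := fun k => subset_vn _ ⟨k, rfl⟩
  have hm : ∀ m i j, mats b c m i j ∈ vn (Set.range b) := by
    intro m i j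
    fin_cases m
    · simp only [mats]
      change Matrix.diagonal c i j ∈ _
      rw [Matrix.diagonal_apply]
      split_ifs
      exacts [hc' i, vn_zero]
    all_goals
      simp only [mats]
      refine vn_smul _ ?_
      rw [herm_eq_sum]
      exact vn_sum _ fun p _ => vn_smul _ (hb' _)
  induction l with
  | nil =>
    intro i j
    simp only [wM, List.map_nil, List.prod_nil, Matrix.one_apply]
    split_ifs
    exacts [vn_one, vn_zero]
  | cons m l ih =>
    intro i j
    rw [wM_cons, Matrix.mul_apply]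
    exact vn_sum _ fun k _ => vn_mul (hm m i k) (ih k j)

lemma Tr_comm {Ω : H} {s : Set (H →L[ℂ] H)}
    (htr : ∀ a ∈ vn s, ∀ a' ∈ vn s, tr Ω (a * a') = tr Ω (a' * a))
    {A B : Matrix (Fin K) (Fin K) (H →L[ℂ] H)} (hA : ∀ i j, A i j ∈ vn s)
    (hB : ∀ i j, B i j ∈ vn s) : Tr Ω (A * B) = Tr Ω (B * A) := by
  simp only [Tr, Matrix.mul_apply, ← trL_apply, map_sum]
  rw [Finset.sum_comm]
  simp only [trL_apply]
  exact Finset.sum_congr rfl fun i _ => Finset.sum_congr rfl fun j _ => htr _ (hA _ _) _ (hB _ _)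

lemma matRep_wM (hMat : MatGoal.{u}) (hK : 0 < K) (Ω : H)
    (M : Fin 3 → Matrix (Fin K) (Fin K) (H →L[ℂ] H)) (l : List (Fin 3)) :
    wprod (fun m => matRep (M m)) l = matRep (wM M l) := by
  obtain ⟨-, h2, -, h4⟩ := hMat K Ω hK
  induction l with
  | nil =>
    rw [wprod_nil, ← h4]
    exact congrArg matRep (funext fun i => funext fun j => by simp [wM, Matrix.one_apply])
  | cons m l ih =>
    rw [wprod_cons, ih, (h2 (M m) (wM M l)).1, wM_cons]
    exact congrArg matRep (funext fun i => funext fun j => (Matrix.mul_apply).symm)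

lemma continuous_piece (hSemi : SemiGoal) (K i : ℕ) : Continuous (piece K i) :=
  hSemi.2.2.2.2.2.1.comp ((continuous_const.add hSemi.1).div_const _)

/-- The diagonal has the moments of the semicircle law. -/
lemma sum_piece_moments (hSemi : SemiGoal) (K n : ℕ) (hK : 0 < K) :
    (∑ i : Fin K, ∫ t in (-2 : ℝ)..2, scDens t * piece K i t ^ n)
      = K * ∫ t in (-2 : ℝ)..2, scDens t * t ^ n := by
  obtain ⟨-, -, -, h0, h1, hcont, -, -, -, hinv, -, hpiece, -⟩ := hSemi
  have hKr : (K : ℝ) ≠ 0 := Nat.cast_ne_zero.2 hK.ne'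
  let a : ℕ → ℝ := fun k => scInv ((k : ℝ) / K)
  have ha0 : a 0 = -2 := by
    have := hinv (-2) ⟨le_rfl, by norm_num⟩
    rw [h0] at this
    simpa [a] using this
  have haK : a K = 2 := by
    have := hinv 2 ⟨by norm_num, le_rfl⟩
    rw [h1] at this
    simpa [a, div_self hKr] using this
  have hg : Continuous fun t => scDens t * t ^ n := by unfold scDens; fun_prop
  have hsum := intervalIntegral.sum_integral_adjacent_intervals (a := a) (n := K)
    (f := fun t => scDens t * t ^ n) (μ := MeasureTheory.volume)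
    fun k _ => hg.intervalIntegrable _ _
  rw [ha0, haK, ← Fin.sum_univ_eq_sum_range] at hsum
  rw [← hsum, Finset.mul_sum]
  refine Finset.sum_congr rfl fun i _ => ?_
  rw [hpiece K i (fun t => t ^ n) hK i.isLt (continuous_pow n)]
  simp [a]

end Raw

open Raw in
/-- Before the gauge the triple has the moments of a free semicircular triple. -/
theorem rawGoal (hSemi : SemiGoal) (hCalc : CalcGoal.{u}) (hCalc' : CalcGoal.{v})
    (hMat : MatGoal.{u}) : RawGoal.{u, v} := by
  intro H _ _ _ K Ω b hK hb H' _ _ _ Ω' X hX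
  have hK0 : 0 < K := by omega
  have hKc : (K : ℂ) ≠ 0 := Nat.cast_ne_zero.2 hK0.ne'
  obtain ⟨-, h2, h3, -⟩ := hMat K Ω hK0
  let c : Fin K → H →L[ℂ] H := fun i => cfc (piece K i) (b (.inl i))
  have hR : rawTriple b = fun m => matRep (mats b c m) := by
    funext m
    fin_cases m
    · refine congrArg matRep (funext fun i => funext fun j => ?_)
      simp [mats, c, xBlock, Matrix.diagonal_apply]
    · exact h3 _ _
    · exact h3 _ _
  let F : List (Fin 3) → ℂ := fun l => (K : ℂ)⁻¹ * Tr Ω (wM (mats b c) l)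
  have hF : ∀ l, tr (matVac Ω) (wprod (rawTriple b) l) = F l := by
    intro l
    rw [hR, matRep_wM hMat hK0 Ω, (h2 (wM (mats b c) l) (wM (mats b c) l)).2.2.2.1]
    rfl
  have hcalc := fun i => (hCalc Ω b hb.toIsSC (.inl i)).2
  have hcvn : ∀ i, c i ∈ vn (Set.range b) := fun i =>
    vn_mono (Set.singleton_subset_iff.2 (Set.mem_range_self (Sum.inl i)))
      (hcalc i (piece K i) (continuous_piece hSemi K i)).2.1
  have hccl : ∀ i, c i ∈ closure (powSpan b i : Set (H →L[ℂ] H)) := by
    intro i
    have h := (hcalc i (piece K i) (continuous_piece hSemi K i)).1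
    simp only [c]
    rw [h]
    exact mem_closure_powSpan hb.toIsSC i _
  have hsplit : ∀ y, y ≠ 0 → ∀ l : List (Fin 3), F (y :: l)
      = ∑ k : Fin l.length, if l.get k = y then
          F (l.take k.val) * F (l.drop (k.val + 1)) else 0 := by
    intro y hy l
    simp only [F]
    rw [split_closure hb.toIsSC c hccl y hy l, ← mul_assoc, Finset.mul_sum]
    refine Finset.sum_congr rfl fun k _ => ?_
    split_ifs <;> ring
  have hrot : ∀ l m, F (l ++ m) = F (m ++ l) := by
    intro l m
    simp only [F, wM_append]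
    rw [Tr_comm hb.tracial (wM_entry_mem hcvn l) (wM_entry_mem hcvn m)]
  have hrot' : ∀ l m, tr Ω' (wprod X (l ++ m)) = tr Ω' (wprod X (m ++ l)) := by
    intro l m
    rw [wprod_append, wprod_append]
    exact hX.tracial _ (vn_wprod l fun i _ => subset_vn _ ⟨i, rfl⟩) _
      (vn_wprod m fun i _ => subset_vn _ ⟨i, rfl⟩)
  have hzero : ∀ n, F (List.replicate n 0) = tr Ω' (wprod X (List.replicate n 0)) := by
    intro n
    have hXn : tr Ω' (wprod X (List.replicate n 0))
        = ((∫ t in (-2 : ℝ)..2, scDens t * t ^ n : ℝ) : ℂ) := by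
      have h := ((hCalc' Ω' X hX.toIsSC 0).2 (fun t => t ^ n) (continuous_pow n)).2.2
      rw [cfc_pow_id (R := ℝ) (X 0) n (hX.sa 0)] at h
      rw [← h]
      simp [wprod]
    have hW : wM (mats b c) (List.replicate n 0) = Matrix.diagonal fun i => c i ^ n := by
      simp [wM, mats, Matrix.diagonal_pow, Pi.pow_def]
    have hdiag : ∀ i : Fin K, tr Ω (c i ^ n)
        = ((∫ t in (-2 : ℝ)..2, scDens t * piece K i t ^ n : ℝ) : ℂ) := by
      intro i
      have hp := continuous_piece hSemi K i
      rw [← (hcalc i (fun t => piece K i t ^ n) (hp.pow n)).2.2,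
        cfc_pow (piece K i) n (b (.inl i)) hp.continuousOn (hb.sa _)]
    rw [hXn]
    simp only [F, hW, Tr, Matrix.diagonal_apply_eq, hdiag]
    rw [← Complex.ofReal_sum, sum_piece_moments hSemi K n hK0, Complex.ofReal_mul,
      Complex.ofReal_natCast, inv_mul_cancel_left₀ hKc]
  intro l
  rw [hF]
  induction hn : l.length using Nat.strong_induction_on generalizing l with
  | _ n ih =>
    by_cases hy : ∃ y ∈ l, y ≠ 0
    · obtain ⟨y, hyl, hy0⟩ := hy
      obtain ⟨l1, l2, rfl⟩ := List.append_of_mem hyl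
      rw [hrot, hrot', List.cons_append, hsplit y hy0, wprod_cons, hX.split]
      refine Finset.sum_congr rfl fun k _ => ?_
      have hlen := k.isLt
      simp only [List.length_append, List.length_cons] at hn hlen
      rw [ih _ (by simp only [List.length_take, List.length_append]; omega) _ rfl,
        ih _ (by simp only [List.length_drop, List.length_append]; omega) _ rfl]
    · simp only [not_exists, not_and, not_not] at hy
      rw [List.eq_replicate_iff.2 ⟨rfl, hy⟩]
      exact hzero _

end Vale.Agent.P086
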